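import Vale.Agent.P133.MathlibUsed

/-!
P133 (helper93): columns over a C*-algebra and matrices acting on them.
-/

open scoped ComplexOrder

namespace Vale.Agent.P133Z

section

variable {B : Type*} [NonUnitalCStarAlgebra B]

/-- the sum of the squares of the entries of a column -/
def col {κ : Type*} [Fintype κ] (z : κ → B) : B := ∑ q, star (z q) * z q

theorem norm_col_le {κ : Type*} [Fintype κ] {z : κ → B} {ε : ℝ} (h : ∀ q, ‖z q‖ ≤ ε) :
    ‖col z‖ ≤ Fintype.card κ * ε ^ 2 := by
  unfold col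
  calc _ ≤ ∑ _q : κ, ε ^ 2 := norm_sum_le_of_le _ fun q _ => by
        rw [CStarRing.norm_star_mul_self, sq]
        exact mul_le_mul (h q) (h q) (norm_nonneg _) ((norm_nonneg _).trans (h q))
    _ = _ := by simp

theorem map_col {C : Type*} [NonUnitalCStarAlgebra C] (π : B →⋆ₙₐ[ℂ] C) {κ : Type*} [Fintype κ]
    (z : κ → B) : π (col z) = col fun q => π (z q) := by
  simp only [col, map_sum, map_mul, map_star]

theorem map_rsmul {C : Type*} [NonUnitalCStarAlgebra C] (π : B →⋆ₙₐ[ℂ] C) (c : ℝ) (x : B) :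
    π (c • x) = c • π x := by
  rw [← Complex.coe_smul, map_smul, Complex.coe_smul]

variable [PartialOrder B] [StarOrderedRing B]

theorem rsmul_le {x y : B} {c : ℝ} (hc : 0 ≤ c) (h : x ≤ y) : c • x ≤ c • y :=
  smul_le_smul_of_nonneg_left h hc

theorem rsmul_mono {x : B} {c d : ℝ} (hx : 0 ≤ x) (h : c ≤ d) : c • x ≤ d • x :=
  smul_le_smul_of_nonneg_right h hx

theorem col_nonneg {κ : Type*} [Fintype κ] (z : κ → B) : 0 ≤ col z :=
  Finset.sum_nonneg fun _ _ => star_mul_self_nonneg _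

theorem norm_mono {x y : B} (hx : 0 ≤ x) (h : x ≤ y) : ‖x‖ ≤ ‖y‖ :=
  CStarAlgebra.norm_le_norm_of_nonneg_of_le hx h

theorem sq_sum_le {ι : Type*} [Fintype ι] (x : ι → B) :
    star (∑ i, x i) * (∑ i, x i) ≤ (Fintype.card ι : ℝ) • col x := by
  have h1 : (0 : B) ≤ ∑ i, ∑ j, star (x i - x j) * (x i - x j) :=
    Finset.sum_nonneg fun _ _ => Finset.sum_nonneg fun _ _ => star_mul_self_nonneg _
  have h2 : ∑ i, ∑ j, star (x i) * x j = star (∑ i, x i) * (∑ i, x i) := by
    rw [star_sum, Finset.sum_mul_sum]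
  have h3 : ∑ i, ∑ j, star (x j) * x i = star (∑ i, x i) * (∑ i, x i) := by
    rw [Finset.sum_comm, h2]
  have h4 : ∑ i, ∑ _j : ι, star (x i) * x i = (Fintype.card ι : ℝ) • col x := by
    simp only [Finset.sum_const, Finset.card_univ, col, Finset.smul_sum, Nat.cast_smul_eq_nsmul]
  have h5 : ∑ _i : ι, ∑ j : ι, star (x j) * x j = (Fintype.card ι : ℝ) • col x := by
    rw [Finset.sum_comm, h4]
  have h6 : ∑ i, ∑ j, star (x i - x j) * (x i - x j) =
      (2 : ℝ) • ((Fintype.card ι : ℝ) • col x - star (∑ i, x i) * (∑ i, x i)) := by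
    simp only [star_sub, sub_mul, mul_sub, Finset.sum_sub_distrib]
    rw [h2, h3, h4, h5, two_smul]
    abel
  rw [h6] at h1
  have h7 := rsmul_le (c := (1 / 2 : ℝ)) (by norm_num) h1
  rw [smul_zero, smul_smul, show (1 / 2 : ℝ) * 2 = 1 by norm_num, one_smul] at h7
  exact sub_nonneg.1 h7

theorem sq_add_le (x y : B) :
    star (x + y) * (x + y) ≤ (2 : ℝ) • (star x * x) + (2 : ℝ) • (star y * y) := by
  have h1 : (0 : B) ≤ star (x - y) * (x - y) := star_mul_self_nonneg _
  have h2 : (2 : ℝ) • (star x * x) + (2 : ℝ) • (star y * y) - star (x + y) * (x + y) =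
      star (x - y) * (x - y) := by
    simp only [star_sub, star_add, sub_mul, mul_sub, add_mul, mul_add, two_smul]
    abel
  rw [← sub_nonneg, h2]
  exact h1

theorem col_add_le {κ : Type*} [Fintype κ] (x y : κ → B) :
    col (fun q => x q + y q) ≤ (2 : ℝ) • col x + (2 : ℝ) • col y := by
  simp only [col, Finset.smul_sum, ← Finset.sum_add_distrib]
  exact Finset.sum_le_sum fun q _ => sq_add_le _ _

theorem col_sum_le {ι κ : Type*} [Fintype ι] [Fintype κ] (x : ι → κ → B) :
    col (fun q => ∑ i, x i q) ≤ (Fintype.card ι : ℝ) • ∑ i, col (x i) := by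
  have h1 : ∑ i, col (x i) = ∑ q, col fun i => x i q := by
    simp only [col]
    exact Finset.sum_comm
  rw [h1, Finset.smul_sum]
  exact Finset.sum_le_sum fun q _ => sq_sum_le _

open WithCStarModule in
/-- the Cauchy-Schwarz inequality -/
theorem cs {κ : Type*} [Fintype κ] (x w : κ → B) :
    star (∑ k, star (x k) * w k) * (∑ k, star (x k) * w k) ≤ ‖col x‖ • col w := by
  let X : C⋆ᵐᵒᵈ(B, κ → B) := (equiv B _).symm fun k => star (x k)
  let W : C⋆ᵐᵒᵈ(B, κ → B) := (equiv B _).symm fun k => star (w k)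
  have h := CStarModule.inner_mul_inner_swap_le (A := B) (x := X) (y := W)
  rw [CStarModule.norm_sq_eq B] at h
  simp only [pi_inner, X, W, equiv_symm_pi_apply, inner_def, star_star] at h
  simpa only [col, star_sum, star_mul, star_star] using h

theorem cs_norm {κ : Type*} [Fintype κ] (x w : κ → B) :
    ‖∑ k, star (x k) * w k‖ ^ 2 ≤ ‖col x‖ * ‖col w‖ := by
  have h := norm_mono (star_mul_self_nonneg _) (cs x w)
  rwa [CStarRing.norm_star_mul_self, ← sq, norm_smul, norm_norm] at h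

theorem conj_le_norm (a : B) {b : B} (hb : 0 ≤ b) : star a * b * a ≤ ‖b‖ • (star a * a) :=
  CStarAlgebra.star_left_conjugate_le_norm_smul (IsSelfAdjoint.of_nonneg hb)

theorem sq_mul_le (e x : B) : star (e * x) * (e * x) ≤ ‖e‖ ^ 2 • (star x * x) := by
  have h := conj_le_norm x (star_mul_self_nonneg e)
  rw [CStarRing.norm_star_mul_self, ← sq] at h
  rw [star_mul]
  simpa only [mul_assoc] using h

theorem single_le_col {κ : Type*} [Fintype κ] (z : κ → B) (q : κ) : star (z q) * z q ≤ col z :=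
  Finset.single_le_sum (f := fun q => star (z q) * z q) (fun _ _ => star_mul_self_nonneg _)
    (Finset.mem_univ q)

theorem norm_sq_le_col {κ : Type*} [Fintype κ] (z : κ → B) (q : κ) : ‖z q‖ ^ 2 ≤ ‖col z‖ := by
  have h := norm_mono (star_mul_self_nonneg _) (single_le_col z q)
  rwa [CStarRing.norm_star_mul_self, ← sq] at h

end

/-- `T* T ≤ C` for a scalar matrix `T` -/
def SF {ι κ : Type*} [Fintype ι] [Fintype κ] [DecidableEq κ] (T : ι → κ → ℂ) (C : ℝ) : Prop :=
  ∃ L : κ → κ → ℂ, ∀ q q', ∑ p, star (T p q) * T p q' + ∑ s, star (L s q) * L s q' =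
    if q = q' then (C : ℂ) else 0

theorem SF.perm {ι κ : Type*} [Fintype ι] [Fintype κ] [DecidableEq κ] {T : ι → κ → ℂ} {C : ℝ}
    (h : SF T C) {τ : κ → κ} (hτ : Function.Injective τ) : SF (fun p q => T p (τ q)) C := by
  obtain ⟨L, hL⟩ := h
  refine ⟨fun s q => L s (τ q), fun q q' => ?_⟩
  rw [hL]
  simp only [hτ.eq_iff]

section

variable {B : Type*} [NonUnitalCStarAlgebra B]

theorem col_smul_eq {ι κ : Type*} [Fintype ι] [Fintype κ] (T : ι → κ → ℂ) (w : κ → B) :
    col (fun p => ∑ q, T p q • w q) =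
      ∑ q, ∑ q', (∑ p, star (T p q) * T p q') • (star (w q) * w q') := by
  simp only [col, star_sum, Finset.sum_mul_sum, star_smul, smul_mul_smul_comm, Finset.sum_smul]
  rw [Finset.sum_comm]
  refine Finset.sum_congr rfl fun q _ => ?_
  rw [Finset.sum_comm]

variable [PartialOrder B] [StarOrderedRing B]

theorem SF.col_le {ι κ : Type*} [Fintype ι] [Fintype κ] [DecidableEq κ] {T : ι → κ → ℂ} {C : ℝ}
    (h : SF T C) (w : κ → B) : col (fun p => ∑ q, T p q • w q) ≤ C • col w := by
  obtain ⟨L, hL⟩ := h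
  have h1 : col (fun p => ∑ q, T p q • w q) + col (fun p => ∑ q, L p q • w q) = C • col w := by
    rw [col_smul_eq, col_smul_eq, ← Finset.sum_add_distrib, col, Finset.smul_sum]
    refine Finset.sum_congr rfl fun q _ => ?_
    rw [← Finset.sum_add_distrib]
    simp only [← add_smul, hL, ite_smul, zero_smul, Finset.sum_ite_eq, Finset.mem_univ, if_true,
      Complex.coe_smul]
  rw [← h1]
  exact le_add_of_nonneg_right (col_nonneg _)

/-- the matrix `X` over `B` satisfies `X* X ≤ C` -/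
def Bd {ι κ : Type*} [Fintype ι] [Fintype κ] (X : ι → κ → B) (C : ℝ) : Prop :=
  ∀ z : κ → B, col (fun p => ∑ q, X p q * z q) ≤ C • col z

theorem Bd.mono {ι κ : Type*} [Fintype ι] [Fintype κ] {X : ι → κ → B} {C C' : ℝ} (h : Bd X C)
    (hC : C ≤ C') : Bd X C' := fun z => (h z).trans (rsmul_mono (col_nonneg z) hC)

theorem Bd.add {ι κ : Type*} [Fintype ι] [Fintype κ] {X Y : ι → κ → B} {C C' : ℝ} (h : Bd X C)
    (h' : Bd Y C') : Bd (fun p q => X p q + Y p q) (2 * C + 2 * C') := by
  intro z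
  simp only [add_mul, Finset.sum_add_distrib]
  refine (col_add_le _ _).trans ?_
  rw [add_smul, mul_smul, mul_smul]
  exact add_le_add (rsmul_le (by norm_num) (h z)) (rsmul_le (by norm_num) (h' z))

theorem Bd.sum {ι κ μ : Type*} [Fintype ι] [Fintype κ] [Fintype μ] {X : μ → ι → κ → B} {C : ℝ}
    (h : ∀ i, Bd (X i) C) : Bd (fun p q => ∑ i, X i p q) ((Fintype.card μ : ℝ) ^ 2 * C) := by
  intro z
  have h1 : (fun p => ∑ q, (∑ i, X i p q) * z q) = fun p => ∑ i, ∑ q, X i p q * z q := by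
    funext p
    simp only [Finset.sum_mul]
    exact Finset.sum_comm
  rw [h1]
  refine (col_sum_le _).trans ?_
  have h2 : ∑ i, col (fun p => ∑ q, X i p q * z q) ≤ ∑ _i : μ, C • col z :=
    Finset.sum_le_sum fun i _ => h i z
  refine (rsmul_le (Nat.cast_nonneg _) h2).trans (le_of_eq ?_)
  rw [Finset.sum_const, Finset.card_univ, ← Nat.cast_smul_eq_nsmul ℝ, smul_smul, smul_smul, sq]

/-- a matrix with small entries -/
theorem Bd.of_entries {ι κ : Type*} [Fintype ι] [Fintype κ] {X : ι → κ → B} {ε : ℝ}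
    (h : ∀ p q, ‖X p q‖ ≤ ε) : Bd X (Fintype.card ι * (Fintype.card κ * ε ^ 2)) := by
  intro z
  have h1 : ∀ p, star (∑ q, X p q * z q) * (∑ q, X p q * z q) ≤
      (Fintype.card κ * ε ^ 2) • col z := by
    intro p
    refine (sq_sum_le _).trans ?_
    rw [mul_smul]
    refine rsmul_le (Nat.cast_nonneg _) ?_
    rw [col, col, Finset.smul_sum]
    refine Finset.sum_le_sum fun q _ => (sq_mul_le _ _).trans ?_
    exact rsmul_mono (star_mul_self_nonneg _) (pow_le_pow_left₀ (norm_nonneg _) (h p q) 2)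
  calc _ ≤ ∑ _p : ι, (Fintype.card κ * ε ^ 2) • col z := Finset.sum_le_sum fun p _ => h1 p
    _ = _ := by
      rw [Finset.sum_const, Finset.card_univ, ← Nat.cast_smul_eq_nsmul ℝ, smul_smul]

/-- the tensor product of a scalar contraction and a matrix over `B` -/
theorem Bd.tensor {H J : Type*} [Fintype H] [DecidableEq H] [Fintype J] {b : H → H → ℂ}
    (hb : SF b 1) {E : J → J → B} {C : ℝ} (hE : Bd E C) :
    Bd (fun (p : H × J) (q : H × J) => b p.1 q.1 • E p.2 q.2) C := by
  intro z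
  have h1 : col (fun p : H × J => ∑ q : H × J, (b p.1 q.1 • E p.2 q.2) * z q) =
      ∑ j, col (fun p : H => ∑ q : H, b p q • ∑ j', E j j' * z (q, j')) := by
    simp only [col, Fintype.sum_prod_type, smul_mul_assoc, Finset.smul_sum]
    exact Finset.sum_comm
  have h2 : ∑ j, col (fun q : H => ∑ j', E j j' * z (q, j')) =
      ∑ q, col (fun j => ∑ j', E j j' * z (q, j')) := by
    simp only [col]
    exact Finset.sum_comm
  have h3 : C • col z = ∑ q, C • col (fun j => z (q, j)) := by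
    simp only [col, Fintype.sum_prod_type, Finset.smul_sum]
  rw [h1, h3]
  calc _ ≤ ∑ j, col (fun q : H => ∑ j', E j j' * z (q, j')) :=
        Finset.sum_le_sum fun j _ => by simpa only [one_smul] using hb.col_le _
    _ ≤ _ := by
        rw [h2]
        exact Finset.sum_le_sum fun q _ => hE fun j => z (q, j)

/-- block matrices -/
theorem Bd.blocks {J ι κ : Type*} [Fintype J] [Fintype ι] [Fintype κ] {X : J → J → ι → κ → B}
    {C : ℝ} (h : ∀ j j', Bd (X j j') C) :
    Bd (fun (p : J × ι) (q : J × κ) => X p.1 q.1 p.2 q.2) ((Fintype.card J : ℝ) ^ 2 * C) := by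
  intro z
  have h1 : col (fun p : J × ι => ∑ q : J × κ, X p.1 q.1 p.2 q.2 * z q) =
      ∑ j, col (fun a => ∑ j', ∑ b, X j j' a b * z (j', b)) := by
    simp only [col, Fintype.sum_prod_type]
  have h3 : C • col z = ∑ j, C • col (fun b => z (j, b)) := by
    simp only [col, Fintype.sum_prod_type, Finset.smul_sum]
  rw [h1]
  calc _ ≤ ∑ _j : J, (Fintype.card J : ℝ) • C • col z := by
        refine Finset.sum_le_sum fun j _ => (col_sum_le _).trans ?_
        refine rsmul_le (Nat.cast_nonneg _) ?_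
        rw [h3]
        exact Finset.sum_le_sum fun j' _ => h j j' fun b => z (j', b)
    _ = _ := by
        rw [Finset.sum_const, Finset.card_univ, ← Nat.cast_smul_eq_nsmul ℝ, smul_smul, smul_smul,
          sq]

theorem nonneg_of_map {A : Type*} [NonUnitalCStarAlgebra A] [PartialOrder A] [StarOrderedRing A]
    (π : A →⋆ₙₐ[ℂ] B) (hπ : Function.Injective π) {x : A} (h : 0 ≤ π x) : 0 ≤ x := by
  have hx : IsSelfAdjoint x := by
    apply hπ
    rw [map_star, (IsSelfAdjoint.of_nonneg h).star_eq]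
  have h1 : π x⁻ = (π x)⁻ :=
    NonUnitalStarAlgHomClass.map_cfcₙ π _ x (hf := by fun_prop) (hf₀ := by simp)
      (hφ := map_continuous π) (ha := hx) (hφa := IsSelfAdjoint.of_nonneg h)
  rw [(CFC.negPart_eq_zero_iff _ (IsSelfAdjoint.of_nonneg h)).2 h] at h1
  exact (CFC.negPart_eq_zero_iff x hx).1 (hπ (by rw [h1, map_zero]))

theorem Bd.of_map {A : Type*} [NonUnitalCStarAlgebra A] [PartialOrder A] [StarOrderedRing A]
    (π : A →⋆ₙₐ[ℂ] B) (hπ : Function.Injective π) {ι κ : Type*} [Fintype ι] [Fintype κ]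
    {X : ι → κ → A} {C : ℝ} (h : Bd (fun p q => π (X p q)) C) : Bd X C := by
  intro z
  rw [← sub_nonneg]
  refine nonneg_of_map π hπ ?_
  rw [map_sub, map_rsmul, map_col, map_col, sub_nonneg]
  simpa only [map_sum, map_mul] using h fun q => π (z q)

theorem Bd.map_col_le {A : Type*} [NonUnitalCStarAlgebra A] [PartialOrder A] [StarOrderedRing A]
    (π : A →⋆ₙₐ[ℂ] B) {ι κ : Type*} [Fintype ι] [Fintype κ] {X : ι → κ → A} {C : ℝ} (h : Bd X C)
    (z : κ → A) : col (fun p => ∑ q, π (X p q) * π (z q)) ≤ C • col fun q => π (z q) := by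
  have h1 : π _ ≤ π _ := OrderHomClass.mono π (h z)
  rw [map_rsmul, map_col, map_col] at h1
  simpa only [map_sum, map_mul] using h1

end

end Vale.Agent.P133Z
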