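import Vale.Agent.P133Z.Col

/-!
P133 (helper93): the main estimate.
-/

open scoped ComplexOrder

namespace Vale.Agent.P133Z

theorem SF.norm_le_one {ι κ : Type*} [Fintype ι] [Fintype κ] [DecidableEq κ] {T : ι → κ → ℂ}
    (h : SF T 1) (p : ι) (q : κ) : ‖T p q‖ ≤ 1 := by
  classical
  have h1 := norm_mono (col_nonneg _) (h.col_le (B := ℂ) fun s => if s = q then 1 else 0)
  have h2 : col (fun s => if s = q then (1 : ℂ) else 0) = 1 := by
    simp [col]
  rw [h2, one_smul, norm_one] at h1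
  have h3 := (norm_sq_le_col _ p).trans h1
  simp only [smul_eq_mul, mul_ite, mul_one, mul_zero, Finset.sum_ite_eq', Finset.mem_univ,
    if_true] at h3
  nlinarith [norm_nonneg (T p q)]

section

variable {B : Type*} [NonUnitalCStarAlgebra B]

/-- the columns of the matrix `x` are approximately orthogonal with square `g` -/
def Orth {J ι : Type*} [Fintype J] [DecidableEq ι] (x : J → ι → B) (g : B) (b : ℝ) : Prop :=
  ∀ p q, ‖∑ j, star (x j p) * x j q - (if p = q then g else 0)‖ ≤ b

theorem Orth.map {C : Type*} [NonUnitalCStarAlgebra C] (π : B →⋆ₙₐ[ℂ] C) {J ι : Type*} [Fintype J]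
    [DecidableEq ι] {x : J → ι → B} {g : B} {b : ℝ} (h : Orth x g b) :
    Orth (fun j p => π (x j p)) (π g) b := by
  intro p q
  refine le_trans (le_of_eq ?_) ((NonUnitalStarAlgHom.norm_apply_le π _).trans (h p q))
  congr 1
  simp only [map_sub, map_sum, map_mul, map_star, apply_ite π, map_zero]

theorem Orth.norm_col {J ι : Type*} [Fintype J] [DecidableEq ι] {x : J → ι → B} {g : B} {b : ℝ}
    (h : Orth x g b) (p : ι) : ‖col fun j => x j p‖ ≤ ‖g‖ + b := by
  have h1 := h p p
  rw [if_pos rfl] at h1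
  calc _ = ‖g + (∑ j, star (x j p) * x j p - g)‖ := by rw [add_sub_cancel]; rfl
    _ ≤ _ := (norm_add_le _ _).trans (by gcongr)

/-- the image of a permutation matrix -/
def phi {J H : Type*} [Fintype H] (x : J → H → B) (τ : H → H) (j j' : J) : B :=
  ∑ q, x j (τ q) * star (x j' q)

theorem norm_pow_four_le {g : B} (hg : star g = g) (h1 : ‖g‖ ≤ 1) : ‖g‖ ^ 4 ≤ ‖g * g * g‖ := by
  have e1 : ‖g * g‖ = ‖g‖ * ‖g‖ := by
    have := CStarRing.norm_star_mul_self (x := g)
    rwa [hg] at this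
  have e2 : ‖g * g * g * g‖ = ‖g * g‖ * ‖g * g‖ := by
    have := CStarRing.norm_star_mul_self (x := g * g)
    rw [star_mul, hg] at this
    rw [← this]
    simp only [mul_assoc]
  have e3 : ‖g * g * g * g‖ ≤ ‖g * g * g‖ :=
    (norm_mul_le _ _).trans (mul_le_of_le_one_right (norm_nonneg _) h1)
  calc ‖g‖ ^ 4 = ‖g‖ * ‖g‖ * (‖g‖ * ‖g‖) := by ring
    _ ≤ _ := by rw [← e1, ← e2]; exact e3

variable [PartialOrder B] [StarOrderedRing B]

theorem Orth.norm_sq {J ι : Type*} [Fintype J] [DecidableEq ι] {x : J → ι → B} {g : B} {b : ℝ}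
    (h : Orth x g b) (j : J) (p : ι) : ‖x j p‖ ^ 2 ≤ ‖g‖ + b :=
  (norm_sq_le_col (fun j => x j p) j).trans (h.norm_col p)

theorem Orth.norm_le_two {J ι : Type*} [Fintype J] [DecidableEq ι] {x : J → ι → B} {g : B} {b : ℝ}
    (h : Orth x g b) (hg : ‖g‖ ≤ 1) (hb : b ≤ 1) (j : J) (p : ι) : ‖x j p‖ ≤ 2 := by
  have := h.norm_sq j p
  nlinarith [norm_nonneg (x j p)]

/-- the rows of a matrix with approximately orthogonal columns -/
theorem Orth.row {J ι : Type*} [Fintype J] [Fintype ι] [DecidableEq ι] {x : J → ι → B} {g : B}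
    {b : ℝ} (h : Orth x g b) (hg : 0 ≤ g) (hb : 0 ≤ b) (j : J) :
    ‖col fun p => star (x j p)‖ ≤ ‖g‖ + (Fintype.card ι : ℝ) ^ 2 * b := by
  set G : B := col fun p => star (x j p) with hG
  have hG0 : 0 ≤ G := col_nonneg _
  have hGs : star G = G := (IsSelfAdjoint.of_nonneg hG0).star_eq
  let K : J → B := fun j' => ∑ p, x j' p * star (x j p)
  have hK : K j = G := by simp only [K, hG, col, star_star]
  have e1 : ‖G‖ ^ 2 ≤ ‖col K‖ := by rw [← hK]; exact norm_sq_le_col K j
  have e2 : col K = ∑ p, x j p * g * star (x j p) + ∑ p, ∑ q,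
      x j p * (∑ j', star (x j' p) * x j' q - (if p = q then g else 0)) * star (x j q) := by
    simp only [col, K, star_sum, star_mul, star_star, Finset.sum_mul, Finset.mul_sum, mul_sub,
      sub_mul, Finset.sum_sub_distrib, mul_ite, ite_mul, mul_zero, zero_mul, Finset.sum_ite_eq,
      Finset.mem_univ, if_true, mul_assoc, add_sub_cancel]
    rw [Finset.sum_comm]
    rw [Finset.sum_comm (s := (Finset.univ : Finset ι)) (t := (Finset.univ : Finset ι))]
    refine Finset.sum_congr rfl fun p _ => ?_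
    rw [Finset.sum_comm]
  have e3 : ‖∑ p, x j p * g * star (x j p)‖ ≤ ‖g‖ * ‖G‖ := by
    have e4 : ∑ p, x j p * g * star (x j p) ≤ ‖g‖ • G := by
      rw [hG, col, Finset.smul_sum]
      refine Finset.sum_le_sum fun p _ => ?_
      simpa only [star_star] using conj_le_norm (star (x j p)) hg
    have e5 := norm_mono (Finset.sum_nonneg fun p _ => by
      simpa only [star_star] using star_left_conjugate_nonneg hg (star (x j p))) e4
    rwa [norm_smul, norm_norm] at e5
  have e6 : ∀ p, ‖x j p‖ ^ 2 ≤ ‖G‖ := fun p => by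
    simpa only [norm_star] using norm_sq_le_col (fun p => star (x j p)) p
  have e7 : ‖∑ p, ∑ q, x j p * (∑ j', star (x j' p) * x j' q - (if p = q then g else 0)) *
      star (x j q)‖ ≤ (Fintype.card ι : ℝ) ^ 2 * b * ‖G‖ := by
    calc _ ≤ ∑ _p : ι, ∑ _q : ι, b * ‖G‖ := by
          refine norm_sum_le_of_le _ fun p _ => norm_sum_le_of_le _ fun q _ => ?_
          calc _ ≤ ‖x j p‖ * b * ‖x j q‖ := by
                refine (norm_mul_le _ _).trans ?_
                rw [norm_star]
                refine mul_le_mul_of_nonneg_right ((norm_mul_le _ _).trans ?_) (norm_nonneg _)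
                exact mul_le_mul_of_nonneg_left (h p q) (norm_nonneg _)
            _ = b * (‖x j p‖ * ‖x j q‖) := by ring
            _ ≤ _ := by
                refine mul_le_mul_of_nonneg_left ?_ hb
                nlinarith [e6 p, e6 q, sq_nonneg (‖x j p‖ - ‖x j q‖)]
      _ = _ := by simp only [Finset.sum_const, Finset.card_univ, nsmul_eq_mul]; ring
  have e8 : ‖G‖ ^ 2 ≤ (‖g‖ + (Fintype.card ι : ℝ) ^ 2 * b) * ‖G‖ := by
    rw [e2] at e1
    have := (e1.trans (norm_add_le _ _)).trans (add_le_add e3 e7)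
    linarith
  rcases (norm_nonneg G).eq_or_lt with h0 | h0
  · rw [← h0]; positivity
  · rw [sq] at e8
    exact le_of_mul_le_mul_right e8 h0

theorem norm_perm_sum_le {H : Type*} [Fintype H] {x y : H → B} {τ : H → H}
    (hτ : Function.Involutive τ) {c : ℝ} (hx : ‖col fun p => star (x p)‖ ≤ c)
    (hy : ‖col fun p => star (y p)‖ ≤ c) : ‖∑ q, x (τ q) * star (y q)‖ ≤ c := by
  have h1 := cs_norm (fun q => star (x (τ q))) (fun q => star (y q))
  have h2 : col (fun q => star (x (τ q))) = col fun p => star (x p) :=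
    Equiv.sum_comp hτ.toPerm fun p => star (star (x p)) * star (x p)
  rw [h2] at h1
  simp only [star_star] at h1
  have h3 : 0 ≤ c := (norm_nonneg _).trans hx
  refine le_of_pow_le_pow_left₀ two_ne_zero h3 (h1.trans ?_)
  rw [sq]
  exact mul_le_mul hx hy (norm_nonneg _) h3

theorem core {n r : ℕ} (hr : 1 ≤ r) {H : Type} [Fintype H] [DecidableEq H] [Nonempty H]
    {τ : Fin r → H → H} (hτ : ∀ i, Function.Involutive (τ i)) {f : H → H → ℂ} (hf : SF f 1)
    (hf2 : (Fintype.card H : ℝ) / 2 ≤ ∑ p, ∑ q, ‖f p q‖ ^ 2) {x : Fin n → H → B} {g : B}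
    (hg : 0 ≤ g) (hg1 : ‖g‖ ≤ 1) {b : ℝ} (hb : 0 ≤ b) (hb1 : b ≤ 1) (hx : Orth x g b)
    {y : Fin r → Fin n → Fin n → B} {C ε : ℝ} (hC : 0 ≤ C)
    (hy : col (fun p : H × Fin n => ∑ q : H × Fin n,
      (∑ i, f p.1 (τ i q.1) • y i p.2 q.2) * x q.2 q.1) ≤ C • col fun q : H × Fin n => x q.2 q.1)
    (he : ∀ i j j', ‖y i j j' + phi x (τ i) j j'‖ ≤ ε) :
    ‖g‖ ^ 4 ≤ 16 * C / r ^ 2 + 16 * n ^ 2 * ε ^ 2 +
      (16 * n * (Fintype.card H : ℝ) ^ 4 + 2 * (Fintype.card H : ℝ) ^ 2) * b := by
  set N : ℝ := (Fintype.card H : ℝ) with hN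
  have hN0 : 0 < N := by rw [hN]; exact_mod_cast Fintype.card_pos
  have hr0 : (0 : ℝ) < r := by exact_mod_cast hr
  have hgs : star g = g := (IsSelfAdjoint.of_nonneg hg).star_eq
  have hf1 := hf.norm_le_one
  have hx2 := hx.norm_le_two hg1 hb1
  let z : H × Fin n → B := fun q => x q.2 q.1
  have hz : ‖col z‖ ≤ 2 * N := by
    have e1 : col z = ∑ q, col fun j => x j q := by
      simp only [col, z, Fintype.sum_prod_type]
    rw [e1]
    calc _ ≤ ∑ _q : H, (2 : ℝ) :=
          norm_sum_le_of_le _ fun q _ => (hx.norm_col q).trans (by linarith)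
      _ = _ := by simp only [Finset.sum_const, Finset.card_univ, nsmul_eq_mul]; ring
  let E : H → H → B := fun s q => ∑ j, star (x j s) * x j q - (if s = q then g else 0)
  let U : H × Fin n → B := fun p => ∑ s, f p.1 s • (x p.2 s * g)
  let W1 : H × Fin n → B := fun p => ∑ q : H × Fin n,
    (∑ i, f p.1 (τ i q.1) • (y i p.2 q.2 + phi x (τ i) p.2 q.2)) * z q
  let W2 : H × Fin n → B := fun p => -∑ q : H × Fin n, (∑ i, f p.1 (τ i q.1) • y i p.2 q.2) * z q
  let W3 : H × Fin n → B := fun p => -∑ q, ∑ i, f p.1 (τ i q) • ∑ s, x p.2 (τ i s) * E s q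
  have hU : ∀ p, (r : ℝ) • U p = (W1 p + W2 p) + W3 p := by
    rintro ⟨p, j⟩
    have e1 : W1 (p, j) + W2 (p, j) =
        ∑ q, ∑ i, f p (τ i q) • ∑ s, x j (τ i s) * ∑ j', star (x j' s) * x j' q := by
      simp only [W1, W2, smul_add, Finset.sum_add_distrib, add_mul, add_neg_cancel_comm,
        Fintype.sum_prod_type, z, phi, Finset.sum_mul, smul_mul_assoc, Finset.mul_sum,
        Finset.smul_sum, mul_assoc]
      refine Finset.sum_congr rfl fun q _ => ?_
      rw [Finset.sum_comm]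
      refine Finset.sum_congr rfl fun i _ => ?_
      rw [Finset.sum_comm]
    have e2 : ∀ i, ∑ q, f p (τ i q) • (x j (τ i q) * g) = U (p, j) := fun i =>
      Equiv.sum_comp (hτ i).toPerm fun s => f p s • (x j s * g)
    have e3 : (r : ℝ) • U (p, j) = ∑ q, ∑ i, f p (τ i q) • (x j (τ i q) * g) := by
      rw [Finset.sum_comm]
      simp only [e2, Finset.sum_const, Finset.card_univ, Fintype.card_fin, Nat.cast_smul_eq_nsmul]
    rw [e1, e3]
    simp only [W3, E, mul_sub, Finset.sum_sub_distrib, smul_sub, mul_ite, mul_zero,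
      Finset.sum_ite_eq', Finset.mem_univ, if_true]
    abel
  have hW1 : ‖col W1‖ ≤ r ^ 2 * (n * (n * ε ^ 2)) * (2 * N) := by
    have e1 := Bd.sum fun i => Bd.tensor (b := fun p q => f p (τ i q))
      (E := fun j j' => y i j j' + phi x (τ i) j j') (hf.perm (hτ i).injective)
      (Bd.of_entries (he i))
    have e2 := norm_mono (col_nonneg _) (e1 z)
    rw [norm_smul, Real.norm_of_nonneg (by positivity)] at e2
    simp only [Fintype.card_fin] at e2
    exact e2.trans (mul_le_mul_of_nonneg_left hz (by positivity))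
  have hW2 : ‖col W2‖ ≤ C * (2 * N) := by
    have e1 : col W2 = col (fun p : H × Fin n => ∑ q : H × Fin n,
        (∑ i, f p.1 (τ i q.1) • y i p.2 q.2) * x q.2 q.1) := by
      simp only [col, W2, star_neg, neg_mul_neg, z]
    have e2 := norm_mono (col_nonneg _) hy
    rw [norm_smul, Real.norm_of_nonneg hC, ← e1] at e2
    exact e2.trans (mul_le_mul_of_nonneg_left hz hC)
  have hW3 : ‖col W3‖ ≤ N * n * (N * (r * (N * (2 * b)))) ^ 2 := by
    have e1 : ∀ p, ‖W3 p‖ ≤ N * (r * (N * (2 * b))) := by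
      intro p
      simp only [W3, norm_neg]
      calc _ ≤ ∑ _q : H, ∑ _i : Fin r, ∑ _s : H, 2 * b := by
            refine norm_sum_le_of_le _ fun q _ => norm_sum_le_of_le _ fun i _ => ?_
            rw [norm_smul]
            refine (mul_le_of_le_one_left (norm_nonneg _) (hf1 _ _)).trans ?_
            refine norm_sum_le_of_le _ fun s _ => (norm_mul_le _ _).trans ?_
            exact mul_le_mul (hx2 _ _) (hx s q) (norm_nonneg _) (by norm_num)
        _ = _ := by
            simp only [Finset.sum_const, Finset.card_univ, nsmul_eq_mul, Fintype.card_fin, hN]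
    have e2 := norm_col_le e1
    rwa [Fintype.card_prod, Fintype.card_fin, Nat.cast_mul] at e2
  have hcU : (r : ℝ) ^ 2 * ‖col U‖ ≤ 4 * ‖col W1‖ + 4 * ‖col W2‖ + 2 * ‖col W3‖ := by
    have e1 : col (fun p => (r : ℝ) • U p) = ((r : ℝ) ^ 2) • col U := by
      simp only [col, star_smul, star_trivial, smul_mul_smul_comm, Finset.smul_sum, sq]
    have e2 : col (fun p => (r : ℝ) • U p) ≤
        (2 : ℝ) • ((2 : ℝ) • col W1 + (2 : ℝ) • col W2) + (2 : ℝ) • col W3 := by
      simp only [hU]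
      exact (col_add_le _ _).trans
        (add_le_add (rsmul_le (by norm_num) (col_add_le _ _)) le_rfl)
    have e3 := norm_mono (col_nonneg _) e2
    rw [e1, norm_smul, Real.norm_of_nonneg (by positivity)] at e3
    refine e3.trans ((norm_add_le _ _).trans ?_)
    rw [norm_smul, norm_smul, Real.norm_two]
    have e4 := norm_add_le ((2 : ℝ) • col W1) ((2 : ℝ) • col W2)
    rw [norm_smul, norm_smul, Real.norm_two] at e4
    linarith
  have hlow : N / 2 * ‖g‖ ^ 4 ≤ ‖col U‖ + N * (N * (N * b)) := by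
    let c : H → H → ℂ := fun s s' => ∑ p, star (f p s) * f p s'
    have e1 : col U = ∑ j, col fun p => ∑ s, f p s • (x j s * g) := by
      simp only [col, U, Fintype.sum_prod_type]
      exact Finset.sum_comm
    have e2 : col U = ∑ s, ∑ s', c s s' • (g * (∑ j, star (x j s) * x j s') * g) := by
      rw [e1]
      simp only [col_smul_eq, star_mul, hgs, Finset.mul_sum, Finset.sum_mul, Finset.smul_sum,
        mul_assoc, c]
      rw [Finset.sum_comm]
      refine Finset.sum_congr rfl fun s _ => ?_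
      rw [Finset.sum_comm]
    have e3 : ∑ s, c s s = ((∑ p, ∑ q, ‖f p q‖ ^ 2 : ℝ) : ℂ) := by
      simp only [c]
      rw [Finset.sum_comm]
      push_cast
      refine Finset.sum_congr rfl fun p _ => Finset.sum_congr rfl fun q _ => ?_
      rw [Complex.star_def, Complex.conj_mul']
    have e4 : (∑ p, ∑ q, ‖f p q‖ ^ 2 : ℝ) • (g * g * g) =
        col U - ∑ s, ∑ s', c s s' • (g * E s s' * g) := by
      rw [← Complex.coe_smul, ← e3, e2]
      simp only [E, mul_sub, sub_mul, smul_sub, Finset.sum_sub_distrib, mul_ite, ite_mul,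
        mul_zero, zero_mul, smul_ite, smul_zero, Finset.sum_ite_eq, Finset.mem_univ, if_true,
        sub_sub_cancel, Finset.sum_smul]
    have e5 : ‖∑ s, ∑ s', c s s' • (g * E s s' * g)‖ ≤ N * (N * (N * b)) := by
      calc _ ≤ ∑ _s : H, ∑ _s' : H, N * b := by
            refine norm_sum_le_of_le _ fun s _ => norm_sum_le_of_le _ fun s' _ => ?_
            rw [norm_smul]
            refine mul_le_mul ?_ ?_ (norm_nonneg _) hN0.le
            · calc _ ≤ ∑ _p : H, (1 : ℝ) := by
                    refine norm_sum_le_of_le _ fun p _ => ?_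
                    rw [norm_mul, norm_star]
                    exact mul_le_one₀ (hf1 _ _) (norm_nonneg _) (hf1 _ _)
                _ = _ := by simp [hN]
            · calc _ ≤ ‖g‖ * ‖E s s'‖ * ‖g‖ :=
                    (norm_mul_le _ _).trans (by gcongr; exact norm_mul_le _ _)
                _ ≤ 1 * b * 1 := by gcongr; exact hx s s'
                _ = b := by ring
        _ = _ := by simp only [Finset.sum_const, Finset.card_univ, nsmul_eq_mul, hN]
    have e6 := congrArg norm e4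
    rw [norm_smul, Real.norm_of_nonneg (by positivity)] at e6
    calc _ ≤ (∑ p, ∑ q, ‖f p q‖ ^ 2) * ‖g * g * g‖ :=
          mul_le_mul hf2 (norm_pow_four_le hgs hg1) (by positivity) (by positivity)
      _ ≤ _ := by
          rw [e6]
          exact (norm_sub_le _ _).trans (by gcongr)
  have hb2 : b ^ 2 ≤ b := by nlinarith
  have k1 : (r : ℝ) ^ 2 * (N / 2 * ‖g‖ ^ 4) ≤ 4 * (r ^ 2 * (n * (n * ε ^ 2)) * (2 * N)) +
      4 * (C * (2 * N)) + 2 * (N * n * (N * (r * (N * (2 * b)))) ^ 2) +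
      r ^ 2 * (N * (N * (N * b))) := by
    have := mul_le_mul_of_nonneg_left hlow (by positivity : (0 : ℝ) ≤ r ^ 2)
    nlinarith
  have k2 : N * n * (N * (r * (N * (2 * b)))) ^ 2 ≤ 4 * r ^ 2 * n * N ^ 5 * b := by
    calc _ = 4 * r ^ 2 * n * N ^ 5 * b ^ 2 := by ring
      _ ≤ _ := by gcongr
  refine le_of_mul_le_mul_left ?_ (by positivity : (0 : ℝ) < r ^ 2 * (N / 2))
  have k3 : (r : ℝ) ^ 2 * (N / 2) * (16 * C / r ^ 2 + 16 * n ^ 2 * ε ^ 2 +
      (16 * n * N ^ 4 + 2 * N ^ 2) * b) = 4 * (r ^ 2 * (n * (n * ε ^ 2)) * (2 * N)) +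
      4 * (C * (2 * N)) + 2 * (4 * r ^ 2 * n * N ^ 5 * b) + r ^ 2 * (N * (N * (N * b))) := by
    field_simp
    ring
  rw [k3]
  nlinarith

end

end Vale.Agent.P133Z
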