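import Vale.Agent.P133F.Defs

/-!
Definitions for the result on exact C*-algebras (P133, question (b)).
-/

namespace Vale.Agent.P133Z

open scoped CStarAlgebra ComplexOrder

universe u v

/-- A map `θ : A → B` between C*-algebras is nuclear if it is a point-norm limit of compositions
`A → M_D(ℂ) → B` of completely positive contractions. -/
def IsNuclearMap {A : Type u} {B : Type v} [NonUnitalCStarAlgebra A] [PartialOrder A]
    [StarOrderedRing A] [NonUnitalCStarAlgebra B] [PartialOrder B] [StarOrderedRing B]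
    (θ : A → B) : Prop :=
  ∀ (T : Finset A) (ε : ℝ), 0 < ε →
    ∃ (D : ℕ) (φ : A →CP CStarMatrix (Fin D) (Fin D) ℂ) (ψ : CStarMatrix (Fin D) (Fin D) ℂ →CP B),
      (∀ a, ‖φ a‖ ≤ ‖a‖) ∧ (∀ x, ‖ψ x‖ ≤ ‖x‖) ∧ ∀ a ∈ T, ‖ψ (φ a) - θ a‖ < ε

end Vale.Agent.P133Z
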