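import Vale.Agent.P133Z.Scalar
import Vale.Agent.P133Z.Defs

/-!
P133 (helper93): the estimate in nuclearly embedded C*-algebras.
-/

open scoped CStarAlgebra ComplexOrder

namespace Vale.Agent.P133Z

section

variable {B : Type*} [NonUnitalCStarAlgebra B] [PartialOrder B] [StarOrderedRing B]

theorem exists_star_mul {x : B} (h : 0 ≤ x) : ∃ y, x = star y * y :=
  CStarAlgebra.nonneg_iff_eq_star_mul_self.1 h

theorem exists_defect {M : Type*} [CStarAlgebra M] [PartialOrder M] [StarOrderedRing M] {x : M}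
    {c : ℝ} (h : ‖x‖ ≤ c) : ∃ L : M, star x * x + star L * L = ((c ^ 2 : ℝ) : ℂ) • (1 : M) := by
  have h1 : star x * x ≤ (c ^ 2) • (1 : M) := by
    refine CStarAlgebra.star_mul_le_algebraMap_norm_sq.trans ?_
    rw [Algebra.algebraMap_eq_smul_one]
    exact smul_le_smul_of_nonneg_right (pow_le_pow_left₀ (norm_nonneg _) h 2) zero_le_one
  obtain ⟨L, hL⟩ := exists_star_mul (sub_nonneg.2 h1)
  exact ⟨L, by rw [← hL, add_sub_cancel, Complex.coe_smul]⟩

/-- the matrix units -/
def unitM {D : ℕ} (a b : Fin D) : CStarMatrix (Fin D) (Fin D) ℂ :=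
  CStarMatrix.ofMatrix (Matrix.single a b 1)

theorem unitM_apply {D : ℕ} (a b c d : Fin D) :
    unitM a b c d = if a = c ∧ b = d then 1 else 0 := rfl

theorem eq_sum_unitM {D : ℕ} (x : CStarMatrix (Fin D) (Fin D) ℂ) :
    x = ∑ a, ∑ b, x a b • unitM a b := by
  have h := Matrix.matrix_eq_sum_single (CStarMatrix.ofMatrix.symm x)
  have h2 : ∀ a b, x a b • unitM a b = CStarMatrix.ofMatrix (Matrix.single a b (x a b)) := by
    intro a b
    ext c d
    simp only [CStarMatrix.smul_apply, unitM_apply, smul_eq_mul, mul_ite, mul_one, mul_zero]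
    rfl
  simp only [h2]
  exact h

theorem choi {D : ℕ} (ψ : CStarMatrix (Fin D) (Fin D) ℂ →CP B) :
    ∃ β : Fin D → Fin D → B, ∀ a b, ψ (unitM a b) = ∑ c, star (β c a) * β c b := by
  rcases Nat.eq_zero_or_pos D with h | h
  · subst h
    exact ⟨fun a => a.elim0, fun a => a.elim0⟩
  let o : Fin D := ⟨0, h⟩
  let V : CStarMatrix (Fin D) (Fin D) (CStarMatrix (Fin D) (Fin D) ℂ) :=
    CStarMatrix.ofMatrix (Matrix.of fun c a => if c = o then unitM o a else 0)
  have h1 : ∀ a b, (star V * V) a b = unitM a b := by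
    intro a b
    rw [CStarMatrix.mul_apply, Finset.sum_eq_single o]
    · have e1 : (star V) a o = star (unitM o a) := by
        rw [CStarMatrix.star_apply]
        show star (if o = o then unitM o a else 0) = _
        rw [if_pos rfl]
      have e2 : V o b = unitM o b := by
        show (if o = o then unitM o b else 0) = _
        rw [if_pos rfl]
      rw [e1, e2]
      ext c d
      rw [CStarMatrix.mul_apply]
      simp only [CStarMatrix.star_apply, unitM_apply, ite_and, apply_ite star, star_one,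
        star_zero, mul_ite, mul_one, mul_zero, Finset.sum_ite_eq,
        Finset.mem_univ, if_true]
      split_ifs <;> rfl
    · intro c _ hc
      have e2 : V c b = 0 := by
        show (if c = o then unitM o b else 0) = _
        rw [if_neg hc]
      rw [e2, mul_zero]
    · intro h
      exact absurd (Finset.mem_univ _) h
  have h2 := ψ.map_cstarMatrix_nonneg (star V * V) (star_mul_self_nonneg V)
  obtain ⟨β, hβ⟩ := exists_star_mul h2
  refine ⟨fun c a => β c a, fun a b => ?_⟩
  have h3 : ((star V * V).map ψ) a b = (star β * β) a b := by rw [hβ]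
  rw [CStarMatrix.map_apply, h1, CStarMatrix.mul_apply] at h3
  simpa only [CStarMatrix.star_apply] using h3

/-- completely positive contractions are completely contractive -/
theorem bd_cp {D : ℕ} (ψ : CStarMatrix (Fin D) (Fin D) ℂ →CP B) (hψ : ∀ x, ‖ψ x‖ ≤ ‖x‖)
    {I : Type} [Fintype I] [DecidableEq I] {X : I → I → CStarMatrix (Fin D) (Fin D) ℂ} {C : ℝ}
    (hC : 0 ≤ C) (hX : SF (fun p q : I × Fin D => X p.1 q.1 p.2 q.2) C) :
    Bd (fun p q => ψ (X p q)) C := by
  obtain ⟨β, hβ⟩ := choi ψ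
  have h1 : ∀ x, ψ x = ∑ a, ∑ b, x a b • ∑ c, star (β c a) * β c b := by
    intro x
    conv_lhs => rw [eq_sum_unitM x]
    simp only [map_sum, map_smul, hβ]
  have h2 : col (fun k : Fin D × Fin D => β k.2 k.1) = ψ 1 := by
    rw [h1]
    simp only [col, Fintype.sum_prod_type, CStarMatrix.one_apply, ite_smul, one_smul, zero_smul,
      Finset.sum_ite_eq, Finset.mem_univ, if_true]
  have h3 : ‖col (fun k : Fin D × Fin D => β k.2 k.1)‖ ≤ 1 := by
    rw [h2]
    refine (hψ 1).trans ?_
    rcases subsingleton_or_nontrivial (CStarMatrix (Fin D) (Fin D) ℂ) with h | h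
    · rw [Subsingleton.elim (1 : CStarMatrix (Fin D) (Fin D) ℂ) 0, norm_zero]; exact zero_le_one
    · rw [norm_one]
  intro z
  let W : I × Fin D → Fin D → B := fun p c =>
    ∑ q : I × Fin D, X p.1 q.1 p.2 q.2 • (β c q.2 * z q.1)
  have h4 : ∀ p, ∑ q, ψ (X p q) * z q =
      ∑ k : Fin D × Fin D, star (β k.2 k.1) * W (p, k.1) k.2 := by
    intro p
    simp only [h1, W, Fintype.sum_prod_type, Finset.sum_mul, Finset.mul_sum, smul_mul_assoc,
      mul_smul_comm, Finset.smul_sum, mul_assoc]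
    rw [Finset.sum_comm]
    refine Finset.sum_congr rfl fun a _ => ?_
    rw [Finset.sum_comm (s := (Finset.univ : Finset (Fin D))) (t := (Finset.univ : Finset I))]
    refine Finset.sum_congr rfl fun q _ => ?_
    rw [Finset.sum_comm]
  have h5 : ∀ p, star (∑ q, ψ (X p q) * z q) * (∑ q, ψ (X p q) * z q) ≤
      col fun k : Fin D × Fin D => W (p, k.1) k.2 := by
    intro p
    rw [h4]
    refine (cs _ _).trans ?_
    simpa only [one_smul] using rsmul_mono (col_nonneg _) h3
  have h6 : ∑ p, col (fun k : Fin D × Fin D => W (p, k.1) k.2) = ∑ c, col fun p => W p c := by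
    simp only [col, Fintype.sum_prod_type]
    symm
    rw [Finset.sum_comm]
    refine Finset.sum_congr rfl fun p _ => ?_
    rw [Finset.sum_comm]
  have h7 : ∑ c, col (fun q : I × Fin D => β c q.2 * z q.1) =
      ∑ q, star (z q) * col (fun k : Fin D × Fin D => β k.2 k.1) * z q := by
    simp only [col, Fintype.sum_prod_type, star_mul, Finset.mul_sum, Finset.sum_mul, mul_assoc]
    rw [Finset.sum_comm]
    refine Finset.sum_congr rfl fun p _ => ?_
    rw [Finset.sum_comm]
  calc col (fun p => ∑ q, ψ (X p q) * z q)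
      ≤ ∑ p, col fun k : Fin D × Fin D => W (p, k.1) k.2 := Finset.sum_le_sum fun p _ => h5 p
    _ = ∑ c, col fun p => W p c := h6
    _ ≤ ∑ c, C • col (fun q : I × Fin D => β c q.2 * z q.1) :=
        Finset.sum_le_sum fun c _ => hX.col_le _
    _ = C • ∑ q, star (z q) * col (fun k : Fin D × Fin D => β k.2 k.1) * z q := by
        rw [← Finset.smul_sum, h7]
    _ ≤ C • col z := by
        refine rsmul_le hC (Finset.sum_le_sum fun q _ => (conj_le_norm _ (col_nonneg _)).trans ?_)
        simpa only [one_smul] using rsmul_mono (star_mul_self_nonneg (z q)) h3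

end

theorem sf_of_cstarMatrix {D : ℕ} {x : CStarMatrix (Fin D) (Fin D) ℂ} {M : ℝ} (h : ‖x‖ ≤ M) :
    SF (fun a b => x a b) (M ^ 2) := by
  obtain ⟨L, hL⟩ := exists_defect h
  refine ⟨fun s q => L s q, fun q q' => ?_⟩
  have h1 : (star x * x + star L * L) q q' =
      (((M ^ 2 : ℝ) : ℂ) • (1 : CStarMatrix (Fin D) (Fin D) ℂ)) q q' := by
    rw [hL]
  simp only [CStarMatrix.add_apply, CStarMatrix.mul_apply, CStarMatrix.star_apply,
    CStarMatrix.smul_apply, CStarMatrix.one_apply] at h1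
  rw [h1]
  split_ifs <;> simp

/-- the property of exact C*-algebras which is used -/
def Small (A : Type*) [NonUnitalCStarAlgebra A] [PartialOrder A] : Prop :=
  ∀ (n r : ℕ), 1 ≤ r → ∀ (y : Fin r → Fin n → Fin n → A) (M : ℝ), 0 < M →
    (∀ i j j', star (y i j j') = y i j' j) → (∀ i j j', ‖y i j j'‖ ≤ M) →
    ∃ (H : Type) (_ : Fintype H) (_ : DecidableEq H) (_ : Nonempty H) (τ : Fin r → H → H)
      (f : H → H → ℂ), (∀ i, Function.Involutive (τ i)) ∧ SF f 1 ∧
      (Fintype.card H : ℝ) / 2 ≤ ∑ p, ∑ q, ‖f p q‖ ^ 2 ∧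
      Bd (fun (p q : H × Fin n) => ∑ i, f p.1 (τ i q.1) • y i p.2 q.2)
        (18 * r * ((n + 1) * M) ^ 2)

theorem small_of_nuclear {A B : Type*} [NonUnitalCStarAlgebra A] [PartialOrder A]
    [StarOrderedRing A] [NonUnitalCStarAlgebra B] [PartialOrder B] [StarOrderedRing B]
    (ι : A →⋆ₙₐ[ℂ] B) (hι : Function.Injective ι) (h : IsNuclearMap ι) : Small A := by
  classical
  intro n r hr y M hM hys hy
  have hr0 : (0 : ℝ) < r := by exact_mod_cast hr
  have hr1 : (1 : ℝ) ≤ r := by exact_mod_cast hr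
  obtain ⟨D, φ, ψ, hφ, hψ, happ⟩ := h
    (Finset.univ.image fun k : Fin r × Fin n × Fin n => y k.1 k.2.1 k.2.2) (M / r) (by positivity)
  let Y : Fin r → Matrix (Fin n × Fin D) (Fin n × Fin D) ℂ := fun i =>
    Matrix.of fun p q => φ (y i p.1 q.1) p.2 q.2
  have hYs : ∀ i, star (Y i) = Y i := by
    intro i
    ext p q
    simp only [Matrix.star_apply, Y, Matrix.of_apply]
    rw [← CStarMatrix.star_apply, ← map_star, hys]
  have hYb : ∀ i, Bd (fun a b => Y i a b) (((n + 1) * M) ^ 2) := by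
    intro i
    have e1 := Bd.blocks (X := fun j j' a b => φ (y i j j') a b)
      fun j j' => (sf_of_cstarMatrix ((hφ _).trans (hy i j j'))).bd
    refine e1.mono ?_
    rw [Fintype.card_fin, mul_pow]
    gcongr
    linarith
  obtain ⟨H, i1, i2, i3, τ, f, h1, h2, h3, h4⟩ := scalar_main hr hYs (by positivity) hYb
  refine ⟨H, i1, i2, i3, τ, f, h1, h2, h3, Bd.of_map ι hι ?_⟩
  have e1 : Bd (fun (p q : H × Fin n) => ψ (∑ i, f p.1 (τ i q.1) • φ (y i p.2 q.2)))
      (8 * r * ((n + 1) * M) ^ 2) := by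
    refine bd_cp ψ hψ (by positivity) ?_
    have e2 := h4.reindex (Equiv.prodAssoc H (Fin n) (Fin D)) (Equiv.prodAssoc H (Fin n) (Fin D))
    convert e2 using 3 with p q
    have e3 : ∀ (x : Fin r → CStarMatrix (Fin D) (Fin D) ℂ) a b,
        (∑ i, x i) a b = ∑ i, x i a b := fun x a b => Matrix.sum_apply a b _ x
    rw [e3]
    rfl
  have e2 : Bd (fun (p q : H × Fin n) =>
      ∑ i, f p.1 (τ i q.1) • (ι (y i p.2 q.2) - ψ (φ (y i p.2 q.2))))
      ((Fintype.card (Fin r) : ℝ) ^ 2 *
        (Fintype.card (Fin n) * (Fintype.card (Fin n) * (M / r) ^ 2))) := by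
    refine Bd.sum fun i => Bd.tensor (b := fun p q => f p (τ i q))
      (E := fun j j' => ι (y i j j') - ψ (φ (y i j j'))) (h2.perm (h1 i).injective)
      (Bd.of_entries fun j j' => ?_)
    rw [norm_sub_rev]
    exact (happ _ (Finset.mem_image.2 ⟨(i, j, j'), Finset.mem_univ _, rfl⟩)).le
  have e3 := e1.add e2
  refine Bd.mono ?_ (C := 2 * (8 * r * ((n + 1) * M) ^ 2) + 2 * ((Fintype.card (Fin r) : ℝ) ^ 2 *
        (Fintype.card (Fin n) * (Fintype.card (Fin n) * (M / r) ^ 2)))) ?_
  · convert e3 using 3 with p q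
    simp only [map_sum, map_smul, smul_sub, Finset.sum_sub_distrib]
    abel
  · simp only [Fintype.card_fin]
    have e4 : (r : ℝ) ^ 2 * (n * (n * (M / r) ^ 2)) = (n * M) ^ 2 := by field_simp
    have e5 : ((n : ℝ) * M) ^ 2 ≤ ((n + 1) * M) ^ 2 := by gcongr; linarith
    have e6 : (((n : ℝ) + 1) * M) ^ 2 ≤ r * ((n + 1) * M) ^ 2 :=
      le_mul_of_one_le_left (by positivity) hr1
    rw [e4]
    linarith

end Vale.Agent.P133Z
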