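import Vale.Agent.P133Z.Step
import Vale.Agent.P133Z.Exact
import Vale.Agent.P133.R2.H28.Cover

/-!
P133 (helper93): exact weakly purely infinite C*-algebras are purely infinite.
-/

open scoped ComplexOrder

namespace Vale.Agent.P133Z

open Vale.Agent.P133 Vale.Agent.P133.Statement Vale.Agent.P133.H832 Vale.Agent.P133F
  Vale.Agent.P133.H681 Vale.Agent.P133.R2.H28

universe u

variable {A : Type u} [NonUnitalCStarAlgebra A] [PartialOrder A] [StarOrderedRing A]

theorem exists_cuts {c : A} (hc : 0 ≤ c) {s : ℝ} (hs : 0 < s) :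
    ∃ w u : A, star u = u ∧ ‖star w * c * w‖ ≤ 1 ∧ star w * c * w * u = u ∧ ‖u‖ ≤ 1 ∧
      ∀ (B : Type u) [NonUnitalCStarAlgebra B] [PartialOrder B] [StarOrderedRing B]
        (π : A →⋆ₙₐ[ℂ] B), ‖π u‖ < 1 → ‖π c‖ ≤ s := by
  have hcs : IsSelfAdjoint c := IsSelfAdjoint.of_nonneg hc
  have l1 : s / 4 < s / 2 := by linarith
  have l2 : s / 2 < s := by linarith
  set f : ℝ → ℝ := fun t => K.ramp (s / 4) (s / 2) t / √(max t (s / 4)) with hf
  have hpos : ∀ t : ℝ, 0 < max t (s / 4) := fun t => lt_max_of_lt_right (by positivity)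
  have hfc : Continuous f := Continuous.div (K.ramp_cont _ _) (by fun_prop)
    fun t => (Real.sqrt_pos.2 (hpos t)).ne'
  have hf0 : f 0 = 0 := by
    simp only [hf, K.ramp_eq_zero l1 (by positivity : (0 : ℝ) ≤ s / 4), zero_div]
  have hff : ∀ t, f t * t * f t = K.ramp (s / 4) (s / 2) t ^ 2 := by
    intro t
    rcases le_total t (s / 4) with h | h
    · simp only [hf, K.ramp_eq_zero l1 h]; simp
    · have h1 : 0 < t := lt_of_lt_of_le (by positivity) h
      have h2 : √t * √t = t := Real.mul_self_sqrt h1.le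
      have h3 : √t ≠ 0 := (Real.sqrt_pos.2 h1).ne'
      simp only [hf, max_eq_left h]
      calc _ = K.ramp (s / 4) (s / 2) t ^ 2 * (t / (√t * √t)) := by field_simp
        _ = _ := by rw [h2, div_self h1.ne', mul_one]
  have hg0 : K.ramp (s / 2) s 0 = 0 := K.ramp_eq_zero l2 (by positivity)
  have hgc : Continuous (K.ramp (s / 2) s) := K.ramp_cont _ _
  have hrc : Continuous fun t => K.ramp (s / 4) (s / 2) t ^ 2 := (K.ramp_cont _ _).pow 2
  have hr0 : (fun t => K.ramp (s / 4) (s / 2) t ^ 2) 0 = 0 := by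
    simp only [K.ramp_eq_zero l1 (by positivity : (0 : ℝ) ≤ s / 4)]; simp
  have e1 : star (cfcₙ f c) * c * cfcₙ f c = cfcₙ (fun t => K.ramp (s / 4) (s / 2) t ^ 2) c := by
    rw [(cfcₙ_predicate (p := IsSelfAdjoint) f c).star_eq]
    simp only [← hff]
    rw [cfcₙ_mul (fun t => f t * t) f c (hfc.mul continuous_id).continuousOn (by simp)
      hfc.continuousOn hf0, cfcₙ_mul f (fun t => t) c hfc.continuousOn hf0 (by fun_prop) rfl,
      cfcₙ_id' ℝ c]
  refine ⟨cfcₙ f c, cfcₙ (K.ramp (s / 2) s) c,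
    (cfcₙ_predicate (p := IsSelfAdjoint) _ c).star_eq, ?_, ?_, ?_, fun B _ _ _ π hπ => ?_⟩
  · rw [e1]
    refine norm_cfcₙ_le fun t _ => ?_
    rw [Real.norm_of_nonneg (by positivity)]
    exact pow_le_one₀ (K.ramp_nonneg _ _ _) (K.ramp_le_one _ _ _)
  · rw [e1, ← cfcₙ_mul _ _ c hrc.continuousOn hr0 hgc.continuousOn hg0]
    refine cfcₙ_congr fun t _ => ?_
    rcases le_total t (s / 2) with h | h
    · simp only [K.ramp_eq_zero l2 h, mul_zero]
    · simp only [K.ramp_eq_one l1 h, one_pow, one_mul]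
  · exact norm_cfcₙ_le fun t _ => K.ramp_abs_le _ _ _
  · have hπc : IsSelfAdjoint (π c) := hcs.map π
    have h2 : π (cfcₙ (K.ramp (s / 2) s) c) = cfcₙ (K.ramp (s / 2) s) (π c) :=
      NonUnitalStarAlgHomClass.map_cfcₙ π _ c (hf := hgc.continuousOn) (hf₀ := hg0)
        (hφ := map_continuous π) (ha := hcs) (hφa := hπc)
    rw [h2] at hπ
    rw [← cfcₙ_id' ℝ (π c)]
    refine norm_cfcₙ_le fun t ht => ?_
    have ht0 : 0 ≤ t := quasispectrum_nonneg_of_nonneg _ (map_nonneg π hc) t ht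
    rw [Real.norm_of_nonneg ht0]
    by_contra h3
    have h4 := norm_apply_le_norm_cfcₙ (K.ramp (s / 2) s) (π c) ht hgc.continuousOn hg0
    rw [K.ramp_eq_one l2 (not_le.1 h3).le, norm_one] at h4
    linarith

theorem exists_orth {a c : A} (ha : 0 ≤ a) (h : InfB a c) (w : A) (ι : Type) [Fintype ι]
    [DecidableEq ι] {β : ℝ} (hβ : 0 < β) : ∃ V : ι → A, (∀ p, V p ∈ RI a) ∧
      ∀ p q, ‖star (V p) * V q - (if p = q then star w * c * w else 0)‖ ≤ β := by
  obtain ⟨r, hr⟩ := h.2 (Fintype.card ι) (β / (‖w‖ ^ 2 + 1)) (by positivity)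
  let e := Fintype.equivFin ι
  have hqs : star (CFC.sqrt a) = CFC.sqrt a :=
    (IsSelfAdjoint.of_nonneg (CFC.sqrt_nonneg a)).star_eq
  refine ⟨fun p => CFC.sqrt a * (r (e p) * w), fun p => RI.mul (sqrt_mem_RI ha) _, fun p q => ?_⟩
  have h1 : star (CFC.sqrt a * (r (e p) * w)) * (CFC.sqrt a * (r (e q) * w)) -
      (if p = q then star w * c * w else 0) =
      star w * (star (r (e p)) * a * r (e q) - (if e p = e q then c else 0)) * w := by
    have h2 : star (CFC.sqrt a * (r (e p) * w)) * (CFC.sqrt a * (r (e q) * w)) =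
        star w * (star (r (e p)) * (CFC.sqrt a * CFC.sqrt a) * r (e q)) * w := by
      simp only [star_mul, hqs, mul_assoc]
    rw [h2, CFC.sqrt_mul_sqrt_self a ha]
    simp only [e.injective.eq_iff, mul_sub, sub_mul, mul_ite, ite_mul, mul_zero, zero_mul]
  rw [h1]
  calc _ ≤ ‖w‖ * (β / (‖w‖ ^ 2 + 1)) * ‖w‖ := by
        refine (norm_mul_le _ _).trans (mul_le_mul_of_nonneg_right ((norm_mul_le _ _).trans ?_)
          (norm_nonneg _))
        rw [norm_star]
        exact mul_le_mul_of_nonneg_left (hr _ _).le (norm_nonneg _)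
    _ = β * (‖w‖ ^ 2 / (‖w‖ ^ 2 + 1)) := by ring
    _ ≤ β := mul_le_of_le_one_right hβ.le (by rw [div_le_one (by positivity)]; linarith)

theorem exists_cols {n : ℕ} (hA : WPI A n) {u : A} (hu : star u = u) (H : Type) [Fintype H]
    [DecidableEq H] {b : ℝ} (hb : 0 < b) :
    ∃ z : Fin n → H → A, Orth (fun j p => u * z j p) (u * u) b := by
  have h0 : 0 ≤ u * u := by
    have := star_mul_self_nonneg u
    rwa [hu] at this
  obtain ⟨z, hz⟩ := hA (u * u) h0 (Fintype.card H) b hb
  let e := Fintype.equivFin H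
  refine ⟨fun j p => z j (e p), fun p q => ?_⟩
  have h1 := (hz (e p) (e q)).le
  simp only [e.injective.eq_iff] at h1
  simpa only [star_mul, hu, mul_assoc] using h1

omit [PartialOrder A] [StarOrderedRing A] in
theorem mul_star_mem_her {a x y : A} (ha : star a = a) (hx : x ∈ RI a) (hy : y ∈ RI a) :
    x * star y ∈ R2.H474.her a := by
  refine map_mem_closure₂ (f := fun x y : A => x * star y) (by fun_prop) hx hy ?_
  rintro _ ⟨v, rfl⟩ _ ⟨w, rfl⟩
  exact ⟨v * star w, by simp only [star_mul, ha, mul_assoc]⟩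

/-- `π h` is close to the scalar `l` on the right ideal of `a` -/
def Sc {B : Type u} [NonUnitalCStarAlgebra B] (π : A →⋆ₙₐ[ℂ] B) (a h : A) (l η : ℝ) : Prop :=
  ∀ x ∈ RI a, ‖π h * π x - l • π x‖ ≤ η * ‖x‖

theorem perturb (hS : Small A) {n : ℕ} (hA : WPI A n) {a c : A} (ha : 0 ≤ a) (hc : InfB a c)
    {s : ℝ} (hs : 0 < s) {h : A} (hh : star h = h) {θ : ℝ} (hθ : 0 < θ) :
    ∃ k : A, star k = k ∧ k ∈ R2.H474.her a ∧ ∃ η : ℝ, 0 < η ∧
      ∀ (B : Type u) [NonUnitalCStarAlgebra B] [PartialOrder B] [StarOrderedRing B]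
        (π : A →⋆ₙₐ[ℂ] B) (l : ℝ), Sc π a (h + k) l η → ‖π k‖ ≤ θ ∧ ‖π c‖ ≤ s := by
  obtain ⟨w, u, hus, he1, heu, hu1, hu⟩ := exists_cuts hc.1 hs
  set e : A := star w * c * w with he
  have he0 : 0 ≤ e := star_left_conjugate_nonneg hc.1 w
  have hes : star e = e := (IsSelfAdjoint.of_nonneg he0).star_eq
  have hg0 : 0 ≤ u * u := by
    have := star_mul_self_nonneg u
    rwa [hus] at this
  have hg1 : ‖u * u‖ ≤ 1 := (norm_mul_le _ _).trans (mul_le_one₀ hu1 (norm_nonneg _) hu1)
  obtain ⟨t, ht0, ht1, ht2⟩ := param_one n hθ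
  obtain ⟨r, ε, β, hr1, hε0, hε1, hβ0, hβ4, hβ3, hβ2, hrε⟩ := param_two n ht0 ht1 (8 * ‖h‖ + 1)
    (L := ‖h‖ + 4 * n + 4) (by positivity)
  obtain ⟨V, hVa, hV⟩ := exists_orth ha hc w (Option (Fin r) × Fin n) hβ0
  have hV2 := norm_le_two_of hV he1 (by linarith)
  have hyn : ∀ p q, ‖star (V p) * h * V q‖ ≤ 4 * ‖h‖ := by
    intro p q
    calc _ ≤ 2 * ‖h‖ * 2 := by
          refine (norm_mul_le _ _).trans (mul_le_mul ((norm_mul_le _ _).trans ?_) (hV2 q)
            (norm_nonneg _) (by positivity))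
          rw [norm_star]
          exact mul_le_mul_of_nonneg_right (hV2 p) (norm_nonneg _)
      _ = _ := by ring
  obtain ⟨H, i1, i2, i3, τ, f, hτ, hf, hf2, hbd⟩ := hS n r hr1 (fun i j j' =>
    star (V (some i, j)) * h * V (some i, j') - star (V (none, j)) * h * V (none, j'))
    (8 * ‖h‖ + 1) (by positivity)
    (fun i j j' => by simp only [star_sub, star_mul, star_star, hh, mul_assoc])
    (fun i j j' => (norm_sub_le _ _).trans (by
      have := hyn (some i, j) (some i, j')
      have := hyn (none, j) (none, j')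
      linarith))
  obtain ⟨b, hb0, hb3, hb2, hb1⟩ := param_three n ht0 ht1 (N := (Fintype.card H : ℝ))
    (by exact_mod_cast Fintype.card_pos)
  obtain ⟨z, hz⟩ := exists_cols hA hus H hb0
  set x : Fin n → H → A := fun j p => u * z j p with hx
  have hex : ∀ j p, e * x j p = x j p := fun j p => by simp only [hx, ← mul_assoc, heu]
  have hk : ‖pert V x τ‖ ≤ 4 * n := by
    refine (norm_pert_le hV he0 he1 hβ0.le hβ3 hz hg0 hb0.le hτ).trans ?_
    calc _ ≤ (n : ℝ) * 2 * 2 := by gcongr; linarith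
      _ = _ := by ring
  refine ⟨pert V x τ, star_pert V x hτ, ?_, ε / 16, by positivity, fun B _ _ _ π l hSc => ?_⟩
  · exact Submodule.sum_mem _ fun i _ => Submodule.sum_mem _ fun j _ => Submodule.sum_mem _
      fun j' _ => mul_star_mem_her (IsSelfAdjoint.of_nonneg ha).star_eq
        (RI.mul (hVa _) _) (hVa _)
  have hπV : ∀ p q, ‖star (π (V p)) * π (V q) - (if p = q then π e else 0)‖ ≤ β := by
    intro p q
    refine le_trans (le_of_eq ?_) ((NonUnitalStarAlgHom.norm_apply_le π _).trans (hV p q))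
    congr 1
    simp only [map_sub, map_mul, map_star, apply_ite π, map_zero, he]
  have hπe1 : ‖π e‖ ≤ 1 := (NonUnitalStarAlgHom.norm_apply_le π _).trans he1
  have hπg1 : ‖π (u * u)‖ ≤ 1 := (NonUnitalStarAlgHom.norm_apply_le π _).trans hg1
  have hπg0 : 0 ≤ π (u * u) := map_nonneg π hg0
  have hπz := hz.map π
  have hπx : ∀ j p, π e * π (x j p) = π (x j p) := fun j p => by rw [← map_mul, hex]
  have hSc' : ∀ p, ‖π (h + pert V x τ) * π (V p) - l • π (V p)‖ ≤ ε / 8 := fun p =>
    (hSc _ (hVa p)).trans ((mul_le_mul_of_nonneg_left (hV2 p) (by positivity)).trans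
      (le_of_eq (by ring)))
  have hg : ‖π (u * u)‖ ≤ t := by
    by_cases hl : |l| ≤ ‖h‖ + 4 * n + 4
    · have k1 := small_of_bounded (B := B) hr1 hτ hf hf2 hπV (by rw [← map_star, hes]) hπe1
        hβ0.le (by linarith) hπg0 hπg1 hb0.le (by linarith) (by linarith) hπz hπx (h := π h)
        (C := 18 * r * ((n + 1) * (8 * ‖h‖ + 1)) ^ 2) (by positivity)
        (by simpa only [map_sum, map_smul, map_sub, map_mul, map_star] using
          hbd.map_col_le π fun q => x q.2 q.1) hl
        (fun p => by simpa only [map_add, map_pert] using hSc' p) hβ2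
      exact le_of_pow_le_pow_left₀ (by norm_num : 4 ≠ 0) ht0.le (by linarith)
    · refine (small_of_large hπV hβ4 hπz hπx (h := π (h + pert V x τ)) ?_ (not_le.1 hl)
        fun p => (hSc' p).trans (by linarith)).trans hb3
      have k3 : ‖π (h + pert V x τ)‖ ≤ ‖h‖ + 4 * n :=
        (NonUnitalStarAlgHom.norm_apply_le π _).trans
          ((norm_add_le _ _).trans (add_le_add le_rfl hk))
      linarith
  refine ⟨?_, hu B π ?_⟩
  · rw [map_pert]
    refine (norm_pert_le hπV (map_nonneg π he0) hπe1 hβ0.le hβ3 hπz hπg0 hb0.le hτ).trans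
      (le_trans ?_ ht2)
    gcongr
  · have k1 : ‖π (u * u)‖ = ‖π u‖ * ‖π u‖ := by
      rw [← CStarRing.norm_star_mul_self, ← map_star, hus, map_mul]
    by_contra k2
    have k3 := mul_le_mul (not_lt.1 k2) (not_lt.1 k2) zero_le_one (norm_nonneg _)
    linarith

theorem exists_nowhere_scalar (hS : Small A) {n : ℕ} (hA : WPI A n) {a : A} (ha : 0 ≤ a)
    {T : ℕ} {c : Fin T → A} (hc : ∀ t, InfB a (c t)) {s : ℝ} (hs : 0 < s) (F : Finset (Fin T)) :
    ∃ h : A, star h = h ∧ h ∈ R2.H474.her a ∧ ∃ η : ℝ, 0 < η ∧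
      ∀ (B : Type u) [NonUnitalCStarAlgebra B] [PartialOrder B] [StarOrderedRing B]
        (π : A →⋆ₙₐ[ℂ] B) (l : ℝ), Sc π a h l η → ∀ t ∈ F, ‖π (c t)‖ ≤ s := by
  classical
  induction F using Finset.induction_on with
  | empty => exact ⟨0, star_zero _, Submodule.zero_mem _, 1, one_pos, by simp⟩
  | insert t F _ ih =>
    obtain ⟨h, h1, h2, η, hη, h3⟩ := ih
    obtain ⟨k, k1, k2, η', hη', k3⟩ := perturb hS hA ha (hc t) hs h1 (half_pos hη)
    refine ⟨h + k, by rw [star_add, h1, k1], Submodule.add_mem _ h2 k2, min η' (η / 2),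
      lt_min hη' (half_pos hη), fun B _ _ _ π l hSc => ?_⟩
    obtain ⟨k4, k5⟩ := k3 B π l fun x hx =>
      (hSc x hx).trans (mul_le_mul_of_nonneg_right (min_le_left _ _) (norm_nonneg _))
    have k6 : Sc π a h l η := by
      intro x hx
      have e1 : π h * π x - l • π x = (π (h + k) * π x - l • π x) - π k * π x := by
        rw [map_add, add_mul]; abel
      have e2 : ‖π k * π x‖ ≤ η / 2 * ‖x‖ := (norm_mul_le _ _).trans
        (mul_le_mul k4 (NonUnitalStarAlgHom.norm_apply_le π _) (norm_nonneg _) (half_pos hη).le)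
      have e3 := (hSc x hx).trans
        (mul_le_mul_of_nonneg_right (min_le_right _ _) (norm_nonneg _))
      rw [e1]
      exact (norm_sub_le _ _).trans (by linarith)
    intro t' ht'
    rcases Finset.mem_insert.1 ht' with rfl | h4
    · exact k5
    · exact h3 B π l k6 t' h4

theorem twoOrth_of_small (hS : Small A) {n : ℕ} (hA : WPI A n) : TwoOrth A := by
  refine twoOrth_iff.2 fun a ha δ hδ => ?_
  obtain ⟨T, c, -, hc, hI⟩ := cover hA ha (half_pos hδ)
  obtain ⟨s, hs, hs'⟩ := normMod_inId hI (half_pos hδ)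
  obtain ⟨d, d1, d2, η, hη, d3⟩ := exists_nowhere_scalar hS hA ha hc
    (s := s / (T + 1)) (by positivity) Finset.univ
  refine ⟨d, d1, d2, fun P hP hcut l hl => hcut ?_⟩
  have h0 : NormMod (P : Set A) (∑ t, c t) s := by
    intro B i1 π hk
    let _ := CStarAlgebra.spectralOrder B
    have _ := CStarAlgebra.spectralOrderedRing B
    have h1 : π d * π a = l • π a := by
      have h2 := hk _ hl
      rwa [map_sub, map_mul, map_rsmul, sub_eq_zero] at h2
    have h2 : Sc π a d l η := by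
      intro x hx
      have h3 : IsClosed {x : A | π d * π x - l • π x = 0} :=
        isClosed_eq (by have := map_continuous π; fun_prop) continuous_const
      have h4 : π d * π x - l • π x = 0 := by
        refine closure_minimal ?_ h3 hx
        rintro _ ⟨w, rfl⟩
        show π d * π (a * w) - l • π (a * w) = 0
        rw [map_mul, ← mul_assoc, h1, smul_mul_assoc, sub_self]
      rw [h4, norm_zero]
      positivity
    rw [map_sum]
    calc _ ≤ ∑ _t : Fin T, s / (T + 1) :=
          norm_sum_le_of_le _ fun t ht => d3 B π l h2 t ht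
      _ = s * (T / (T + 1)) := by
          simp only [Finset.sum_const, Finset.card_univ, Fintype.card_fin, nsmul_eq_mul]; ring
      _ ≤ s := mul_le_of_le_one_right hs.le (by rw [div_le_one (by positivity)]; linarith)
  have h1 := normMod_of_cut ha (half_pos hδ) (hs' _ h0)
  obtain ⟨B, i1, i2, i3, π, -, hk⟩ := hP.quot
  refine cut_mem_of_norm ha hδ π hk ?_
  have h2 := h1 B i1 π fun x hx => (hk x).2 hx
  linarith

/-- weakly purely infinite C*-algebras with the property `Small` are purely infinite -/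
theorem pi_of_small (hS : Small A) (hW : WeaklyPurelyInfinite A) : PurelyInfinite A := by
  obtain ⟨n, hn⟩ := wpi_elementwise hW
  exact pi_of_twoOrth hn (twoOrth_of_small hS hn)

end Vale.Agent.P133Z
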