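import Vale.Agent.P133.MathlibUsed
import Mathlib.Data.Set.Finite.List

/-!
P133 (helper93): finite sets with involutions which look locally like a tree.
-/

namespace Vale.Agent.P133Z

section

variable {α : Type} [DecidableEq α]

/-- the involution of the words of length at most `R` given by the letter `i` -/
def act (R : ℕ) (i : α) (w : List α) : List α :=
  if w.head? = some i then (if w.tail.head? = some i then w else w.tail)
  else (if w.length < R then i :: w else w)

theorem act_length (R : ℕ) (i : α) (w : List α) : (act R i w).length ≤ w.length + 1 := by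
  unfold act
  split_ifs <;> simp
  omega

theorem act_length_le {R : ℕ} (i : α) {w : List α} (h : w.length ≤ R) : (act R i w).length ≤ R := by
  unfold act
  split_ifs with h1 h2 h3
  · exact h
  · rw [List.length_tail]; omega
  · rw [List.length_cons]; omega
  · exact h

theorem act_act {R : ℕ} (i : α) {w : List α} (h : w.length ≤ R) : act R i (act R i w) = w := by
  by_cases h1 : w.head? = some i
  · by_cases h2 : w.tail.head? = some i
    · have h3 : act R i w = w := by simp only [act, h1, h2, if_true]
      rw [h3, h3]
    · have h3 : act R i w = w.tail := by simp only [act, h1, h2, if_true, if_false]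
      rw [h3]
      cases w with
      | nil => simp at h1
      | cons a t =>
        simp only [List.head?_cons, Option.some.injEq] at h1
        simp only [List.tail_cons] at h2 ⊢
        simp only [List.length_cons] at h
        have h4 : t.length < R := by omega
        simp only [act, h2, if_false, h4, if_true, h1]
  · by_cases h2 : w.length < R
    · have h3 : act R i w = i :: w := by simp only [act, h1, h2, if_true, if_false]
      rw [h3]
      simp only [act, List.head?_cons, if_true, List.tail_cons, h1, if_false]
    · have h3 : act R i w = w := by simp only [act, h1, h2, if_false]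
      rw [h3, h3]

theorem act_head {R : ℕ} {i : α} {w : List α} (h : w.length < R)
    (h1 : (act R i w).length ≤ w.length) : w.head? = some i := by
  by_contra h2
  simp only [act, h2, h, if_true, if_false, List.length_cons] at h1
  omega

end

theorem girth (r R : ℕ) : ∃ (H : Type) (_ : Fintype H) (_ : DecidableEq H) (_ : Nonempty H)
    (τ : Fin r → H → H) (l : H → H → ℕ), (∀ i, Function.Involutive (τ i)) ∧ (∀ x, l x x = 0) ∧
    (∀ x y i, l x (τ i y) ≤ l x y + 1) ∧
    ∀ x y, l x y < R → ∀ i j, l x (τ i y) ≤ l x y → l x (τ j y) ≤ l x y → i = j := by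
  classical
  let W : Type := {w : List (Fin r) // w.length ≤ R}
  have hW : Finite W := (List.finite_length_le (Fin r) R).to_subtype
  let s : Fin r → W → W := fun i w => ⟨act R i w.1, act_length_le i w.2⟩
  have hs : ∀ i, Function.Involutive (s i) := fun i w => Subtype.ext (act_act i w.2)
  let σ : Fin r → Equiv.Perm W := fun i => (hs i).toPerm
  have hσ : ∀ i, σ i * σ i = 1 := fun i => Equiv.ext fun w => hs i w
  let o : W := ⟨[], Nat.zero_le _⟩
  have key : ∀ (x y : Equiv.Perm W) (i : Fin r),
      ((σ i * y * x⁻¹) o).1 = act R i ((y * x⁻¹) o).1 := fun x y i => rfl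
  refine ⟨Equiv.Perm W, Fintype.ofFinite _, inferInstance, inferInstance, fun i g => σ i * g,
    fun x y => ((y * x⁻¹) o).1.length, fun i g => ?_, fun x => ?_, fun x y i => ?_,
    fun x y h i j hi hj => ?_⟩
  · show σ i * (σ i * g) = g
    rw [← mul_assoc, hσ, one_mul]
  · simp only [mul_inv_cancel]
    rfl
  · simp only [key]
    exact act_length _ _ _
  · simp only [key] at hi hj
    have h1 := act_head h hi
    have h2 := act_head h hj
    rw [h1] at h2
    exact Option.some.inj h2

/-- the walk estimate: one step -/
theorem walk_step {r R : ℕ} {H : Type} [Fintype H] {τ : Fin r → H → H} {l : H → ℕ}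
    (h1 : ∀ i, Function.Involutive (τ i)) (h2 : ∀ y i, l (τ i y) ≤ l y + 1)
    (h3 : ∀ y, l y < R → ∀ i j, l (τ i y) ≤ l y → l (τ j y) ≤ l y → i = j)
    {t M : ℝ} (ht : 0 < t) (ht1 : t ≤ 1) (hM : 0 ≤ M) {n : ℕ} (hn : n < R) {a b : H → ℝ}
    (ha : ∀ y, 0 ≤ a y) (ha0 : ∀ y, n < l y → a y = 0) (hb : ∀ y, b y ≤ M * ∑ i, a (τ i y)) :
    ∑ y, b y * t ^ l y ≤ M * (1 / t + r * t) * ∑ y, a y * t ^ l y := by
  classical
  have e1 : ∀ i, ∑ y, a (τ i y) * t ^ l y = ∑ y, a y * t ^ l (τ i y) := by
    intro i
    rw [← Equiv.sum_comp (h1 i).toPerm]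
    refine Finset.sum_congr rfl fun y _ => ?_
    simp only [Function.Involutive.coe_toPerm, h1 i y]
  have e2 : ∀ y, l y < R → ∑ i, t ^ l (τ i y) ≤ (1 / t + r * t) * t ^ l y := by
    intro y hy
    have e3 : ∀ i, t ^ l (τ i y) ≤ ((if l (τ i y) ≤ l y then 1 / t else 0) + t) * t ^ l y := by
      intro i
      split_ifs with hi
      · have e4 : l y ≤ l (τ i y) + 1 := by
          have := h2 (τ i y) i
          rwa [h1 i y] at this
        have e5 : t ^ (l (τ i y) + 1) ≤ t ^ l y := pow_le_pow_of_le_one ht.le ht1 e4
        have e6 : t ^ l (τ i y) ≤ 1 / t * t ^ l y := by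
          rw [one_div, ← div_eq_inv_mul, le_div_iff₀ ht, ← pow_succ]
          exact e5
        have e7 : 0 ≤ t * t ^ l y := by positivity
        rw [add_mul]
        linarith
      · have e4 : l (τ i y) = l y + 1 := by
          have := h2 y i
          omega
        rw [e4, pow_succ, zero_add, mul_comm]
    have e8 : ∑ i, (if l (τ i y) ≤ l y then 1 / t else 0) ≤ 1 / t := by
      rw [← Finset.sum_filter, Finset.sum_const, nsmul_eq_mul]
      have e9 : (Finset.univ.filter fun i => l (τ i y) ≤ l y).card ≤ 1 := by
        rw [Finset.card_le_one]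
        intro i hi j hj
        exact h3 y hy i j (Finset.mem_filter.1 hi).2 (Finset.mem_filter.1 hj).2
      have e10 : ((Finset.univ.filter fun i => l (τ i y) ≤ l y).card : ℝ) ≤ 1 := by
        exact_mod_cast e9
      exact mul_le_of_le_one_left (by positivity) e10
    calc _ ≤ ∑ i, ((if l (τ i y) ≤ l y then 1 / t else 0) + t) * t ^ l y :=
          Finset.sum_le_sum fun i _ => e3 i
      _ = (∑ i, (if l (τ i y) ≤ l y then 1 / t else 0) + r * t) * t ^ l y := by
          rw [← Finset.sum_mul, Finset.sum_add_distrib]
          simp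
      _ ≤ _ := by gcongr
  calc ∑ y, b y * t ^ l y ≤ ∑ y, (M * ∑ i, a (τ i y)) * t ^ l y :=
        Finset.sum_le_sum fun y _ => mul_le_mul_of_nonneg_right (hb y) (by positivity)
    _ = M * ∑ i, ∑ y, a (τ i y) * t ^ l y := by
        rw [Finset.sum_comm, Finset.mul_sum]
        refine Finset.sum_congr rfl fun y _ => ?_
        rw [mul_assoc, Finset.sum_mul]
    _ = M * ∑ y, a y * ∑ i, t ^ l (τ i y) := by
        simp only [e1, Finset.mul_sum]
        rw [Finset.sum_comm]
    _ ≤ M * ∑ y, (1 / t + r * t) * (a y * t ^ l y) := by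
        refine mul_le_mul_of_nonneg_left (Finset.sum_le_sum fun y _ => ?_) hM
        by_cases hy : n < l y
        · rw [ha0 y hy]; simp
        · calc _ ≤ a y * ((1 / t + r * t) * t ^ l y) :=
                mul_le_mul_of_nonneg_left (e2 y (by omega)) (ha y)
            _ = _ := by ring
    _ = _ := by rw [← Finset.mul_sum, mul_assoc]

end Vale.Agent.P133Z
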