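import Vale.Agent.P133Z.Col
import Vale.Agent.P133Z.Words
import Mathlib.Analysis.Matrix.Order
import Mathlib.Analysis.CStarAlgebra.Matrix

/-!
P133 (helper93): sums of tensor products of permutation matrices and matrices are small on a
large subspace.
-/

open scoped ComplexOrder

namespace Vale.Agent.P133Z

section

variable {M : Type*} [CStarAlgebra M]

theorem norm_conj_pow {F T : M} (hF : ‖F‖ ≤ 1) (hT : star T = T) (k : ℕ) :
    ‖star F * T * F‖ ^ 2 ^ k ≤ ‖star F * T ^ 2 ^ k * F‖ := by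
  induction k with
  | zero => simp
  | succ k ih =>
    have h1 : ‖star F * T ^ 2 ^ k * F‖ ≤ ‖T ^ 2 ^ k * F‖ := by
      rw [mul_assoc]
      refine (norm_mul_le _ _).trans ?_
      rw [norm_star]
      exact mul_le_of_le_one_left (norm_nonneg _) hF
    have h2 : star (T ^ 2 ^ k * F) * (T ^ 2 ^ k * F) = star F * T ^ 2 ^ (k + 1) * F := by
      rw [star_mul, star_pow, hT, pow_succ 2 k, mul_two, pow_add]
      simp only [mul_assoc]
    rw [← h2, CStarRing.norm_star_mul_self, pow_succ 2 k, pow_mul, sq]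
    have h3 := ih.trans h1
    exact mul_le_mul h3 h3 (by positivity) (norm_nonneg _)

variable [PartialOrder M] [StarOrderedRing M]

theorem exists_cutoff {x : M} (hx : 0 ≤ x) {c : ℝ} (hc : 0 < c) :
    ∃ f : M, star f = f ∧ f * f ≤ 1 ∧ f * x * f ≤ c • (1 : M) ∧ 1 - (2 / c) • x ≤ f * f := by
  have hs : ∀ t ∈ spectrum ℝ x, 0 ≤ t := fun t ht => spectrum_nonneg_of_nonneg hx ht
  have hxs : IsSelfAdjoint x := IsSelfAdjoint.of_nonneg hx
  set g : ℝ → ℝ := fun t => c / (c + t) with hg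
  have hgc : ContinuousOn g (spectrum ℝ x) :=
    ContinuousOn.div continuousOn_const (by fun_prop) fun t ht => by
      have := hs t ht
      positivity
  have e1 : cfc g x * cfc g x = cfc (fun t => g t * g t) x := (cfc_mul g g x hgc hgc).symm
  have e2 : cfc g x * x * cfc g x = cfc (fun t => g t * t * g t) x := by
    rw [cfc_mul (fun t => g t * t) g x (hgc.mul continuousOn_id) hgc,
      cfc_mul g (fun t => t) x hgc continuousOn_id, cfc_id' ℝ x]
  have e3 : c • (1 : M) = cfc (fun _ : ℝ => c) x := by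
    rw [cfc_const c x, Algebra.algebraMap_eq_smul_one]
  have e4 : 1 - (2 / c) • x = cfc (fun t : ℝ => 1 - (2 / c) * t) x := by
    rw [cfc_sub (fun _ : ℝ => (1 : ℝ)) (fun t => (2 / c) * t) x, cfc_const_one ℝ x,
      cfc_const_mul_id (2 / c) x]
  refine ⟨cfc g x, (cfc_predicate g x).star_eq, ?_, ?_, ?_⟩
  · rw [e1]
    refine cfc_le_one _ _ fun t ht => ?_
    have h0 := hs t ht
    have h1 : g t ≤ 1 := by
      rw [hg, div_le_one (by positivity)]; linarith
    have h2 : 0 ≤ g t := by rw [hg]; positivity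
    nlinarith
  · rw [e2, e3]
    refine cfc_mono (fun t ht => ?_) ((hgc.mul continuousOn_id).mul hgc) continuousOn_const
    have h0 := hs t ht
    have h1 : g t ≤ 1 := by
      rw [hg, div_le_one (by positivity)]; linarith
    have h2 : 0 ≤ g t := by rw [hg]; positivity
    have h3 : g t * t ≤ c := by
      rw [hg, div_mul_eq_mul_div, div_le_iff₀ (by positivity)]; nlinarith
    have h4 : 0 ≤ g t * t := by positivity
    nlinarith
  · rw [e1, e4]
    refine cfc_mono (fun t ht => ?_) (by fun_prop) (hgc.mul hgc)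
    have h0 := hs t ht
    have h1 : g t = 1 - t / (c + t) := by
      rw [hg]; field_simp; ring
    have h2 : t / (c + t) ≤ t / c := div_le_div_of_nonneg_left h0 hc (by linarith)
    have h3 : 2 / c * t = 2 * (t / c) := by ring
    rw [h1, h3]
    nlinarith [sq_nonneg (t / (c + t))]

end

open scoped Matrix.Norms.L2Operator MatrixOrder Kronecker
open Matrix

theorem sf_of_le {ι : Type*} [Fintype ι] [DecidableEq ι] {T : Matrix ι ι ℂ} {C : ℝ}
    (h : star T * T ≤ C • (1 : Matrix ι ι ℂ)) : SF (fun p q => T p q) C := by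
  obtain ⟨L, hL⟩ := CStarAlgebra.nonneg_iff_eq_star_mul_self.1 (sub_nonneg.2 h)
  refine ⟨fun s q => L s q, fun q q' => ?_⟩
  have h1 : (star T * T + star L * L) q q' = (C • (1 : Matrix ι ι ℂ)) q q' := by
    rw [← hL, add_sub_cancel]
  simp only [Matrix.add_apply, Matrix.mul_apply, Matrix.star_apply, Matrix.smul_apply,
    Matrix.one_apply] at h1
  rw [h1]
  split_ifs <;> simp

theorem sf_of_norm {ι : Type*} [Fintype ι] [DecidableEq ι] {T : Matrix ι ι ℂ} {C : ℝ}
    (h : ‖T‖ ^ 2 ≤ C) : SF (fun p q => T p q) C := by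
  refine sf_of_le (CStarAlgebra.star_mul_le_algebraMap_norm_sq.trans ?_)
  rw [Algebra.algebraMap_eq_smul_one]
  exact smul_le_smul_of_nonneg_right h zero_le_one

theorem SF.reindex {ι κ ι' κ' : Type*} [Fintype ι] [Fintype κ] [DecidableEq κ] [Fintype ι']
    [Fintype κ'] [DecidableEq κ'] {T : ι → κ → ℂ} {C : ℝ} (h : SF T C) (e : ι' ≃ ι) (e' : κ' ≃ κ) :
    SF (fun p q => T (e p) (e' q)) C := by
  obtain ⟨L, hL⟩ := h
  refine ⟨fun s q => L (e' s) (e' q), fun q q' => ?_⟩
  rw [Equiv.sum_comp e fun p => star (T p (e' q)) * T p (e' q'),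
    Equiv.sum_comp e' fun s => star (L s (e' q)) * L s (e' q'), hL]
  simp only [e'.injective.eq_iff]

theorem SF.bd {ι κ : Type*} [Fintype ι] [Fintype κ] [DecidableEq κ] {T : ι → κ → ℂ} {C : ℝ}
    (h : SF T C) : Bd T C := fun z => h.col_le z

section

variable {H D : Type} [Fintype H] [DecidableEq H] [Fintype D] [DecidableEq D]

/-- the trace in the second variable -/
def ptr (X : Matrix (H × D) (H × D) ℂ) : Matrix H H ℂ := Matrix.of fun p q => ∑ a, X (p, a) (q, a)

omit [Fintype H] [DecidableEq H] [DecidableEq D] in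
theorem ptr_nonneg {X : Matrix (H × D) (H × D) ℂ} (hX : 0 ≤ X) : 0 ≤ ptr X := by
  rw [Matrix.nonneg_iff_posSemidef] at hX ⊢
  have h1 : ptr X = ∑ a, X.submatrix (fun p => (p, a)) (fun p => (p, a)) := by
    ext p q
    simp only [ptr, Matrix.of_apply, Matrix.sum_apply, Matrix.submatrix_apply]
  rw [h1]
  exact Matrix.posSemidef_sum _ fun a _ => hX.submatrix _

omit [DecidableEq H] in
theorem ptr_conj (f g : Matrix H H ℂ) (X : Matrix (H × D) (H × D) ℂ) :
    ptr ((f ⊗ₖ (1 : Matrix D D ℂ)) * X * (g ⊗ₖ (1 : Matrix D D ℂ))) = f * ptr X * g := by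
  ext p q
  simp only [ptr, Matrix.of_apply, Matrix.mul_apply, Fintype.sum_prod_type, kroneckerMap_apply,
    Matrix.one_apply, mul_ite, mul_one, mul_zero, ite_mul, zero_mul, Finset.sum_ite_eq,
    Finset.sum_ite_eq', Finset.mem_univ, if_true, Finset.mul_sum, Finset.sum_mul]
  rw [Finset.sum_comm]
  refine Finset.sum_congr rfl fun s _ => ?_
  rw [Finset.sum_comm]

theorem le_ptr (Z : Matrix (H × D) (H × D) ℂ) :
    star Z * Z ≤ (Fintype.card D : ℝ) • (ptr (star Z * Z) ⊗ₖ (1 : Matrix D D ℂ)) := by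
  let W : D → D → Matrix (H × D) (H × D) ℂ := fun a b => (1 : Matrix H H ℂ) ⊗ₖ single a b 1
  have h1 : ∑ a, W a a = 1 := by
    ext ⟨p, a⟩ ⟨q, b⟩
    simp only [W, Matrix.sum_apply, kroneckerMap_apply, Matrix.one_apply, Matrix.single_apply,
      Prod.mk.injEq]
    by_cases h : p = q
    · by_cases h' : a = b
      · subst h'; simp [h]
      · simp only [h, if_true, one_mul, h', and_false, if_false]
        refine Finset.sum_eq_zero fun c _ => if_neg ?_
        rintro ⟨rfl, rfl⟩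
        exact h' rfl
    · simp [h]
  have h2 : ∀ X : Matrix (H × D) (H × D) ℂ,
      ∑ a, ∑ b, star (W a b) * X * W a b = ptr X ⊗ₖ (1 : Matrix D D ℂ) := by
    intro X
    ext ⟨p, c⟩ ⟨q, d⟩
    simp only [W, Matrix.sum_apply, kroneckerMap_apply, Matrix.one_apply, Matrix.single_apply,
      Matrix.mul_apply, Matrix.star_apply, Fintype.sum_prod_type, ptr, Matrix.of_apply,
      Finset.sum_mul]
    refine Finset.sum_congr rfl fun a _ => ?_
    simp only [ite_and, apply_ite star, star_one, star_zero, mul_ite, mul_one, mul_zero, ite_mul,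
      zero_mul, one_mul, Finset.sum_ite_eq, Finset.sum_ite_eq', Finset.mem_univ, if_true,
      Finset.sum_const_zero, Finset.sum_ite_irrel]
    simp only [eq_comm (a := d)]
  have h3 : Z = ∑ a, Z * W a a := by rw [← Finset.mul_sum, h1, mul_one]
  calc star Z * Z = star (∑ a, Z * W a a) * (∑ a, Z * W a a) := by rw [← h3]
    _ ≤ (Fintype.card D : ℝ) • col fun a => Z * W a a := sq_sum_le _
    _ ≤ _ := by
      refine rsmul_le (Nat.cast_nonneg _) ?_
      rw [← h2, col]
      refine Finset.sum_le_sum fun a _ => ?_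
      have h4 : ∀ b, star (W a b) * (star Z * Z) * W a b = star (Z * W a b) * (Z * W a b) := by
        intro b
        rw [star_mul]; simp only [mul_assoc]
      simp only [h4]
      exact single_le_col (fun b => Z * W a b) a

theorem kron_le {x : Matrix H H ℂ} {c : ℝ} (h : x ≤ c • (1 : Matrix H H ℂ)) :
    x ⊗ₖ (1 : Matrix D D ℂ) ≤ c • (1 : Matrix (H × D) (H × D) ℂ) := by
  rw [Matrix.le_iff] at h ⊢
  have h1 : c • (1 : Matrix (H × D) (H × D) ℂ) - x ⊗ₖ (1 : Matrix D D ℂ) =
      (c • (1 : Matrix H H ℂ) - x) ⊗ₖ (1 : Matrix D D ℂ) := by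
    ext ⟨p, a⟩ ⟨q, b⟩
    simp only [Matrix.sub_apply, Matrix.smul_apply, kroneckerMap_apply, Matrix.one_apply,
      Prod.mk.injEq]
    by_cases h1 : p = q <;> by_cases h2 : a = b <;> simp [h1, h2]
  rw [h1]
  exact h.kronecker Matrix.PosSemidef.one

/-- the sum of the tensor products of the permutation matrices and the matrices `Y i` -/
def sumT {r : ℕ} (τ : Fin r → H → H) (Y : Fin r → Matrix D D ℂ) : Matrix (H × D) (H × D) ℂ :=
  Matrix.of fun p q => ∑ i, if q.1 = τ i p.1 then Y i p.2 q.2 else 0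

omit [Fintype H] [Fintype D] [DecidableEq D] in
theorem star_sumT {r : ℕ} {τ : Fin r → H → H} (hτ : ∀ i, Function.Involutive (τ i))
    {Y : Fin r → Matrix D D ℂ} (hY : ∀ i, star (Y i) = Y i) : star (sumT τ Y) = sumT τ Y := by
  ext ⟨p, a⟩ ⟨q, b⟩
  simp only [Matrix.star_apply, sumT, Matrix.of_apply, star_sum]
  refine Finset.sum_congr rfl fun i _ => ?_
  have h1 : p = τ i q ↔ q = τ i p :=
    ⟨fun h => by rw [h, hτ i q], fun h => by rw [h, hτ i p]⟩
  have h2 : star (Y i b a) = Y i a b := by rw [← Matrix.star_apply, hY]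
  by_cases h : q = τ i p
  · rw [if_pos h, if_pos (h1.2 h), h2]
  · rw [if_neg h, if_neg fun h' => h (h1.1 h'), star_zero]

/-- the columns of a matrix as vectors -/
def vcol (X : Matrix (H × D) (H × D) ℂ) (v : H × D) (y : H) : EuclideanSpace ℂ D :=
  WithLp.toLp 2 fun b => X (y, b) v

omit [DecidableEq D] in
theorem vcol_mul {r : ℕ} (τ : Fin r → H → H) (Y : Fin r → Matrix D D ℂ)
    (X : Matrix (H × D) (H × D) ℂ) (v : H × D) (y : H) :
    vcol (sumT τ Y * X) v y =
      ∑ i, (WithLp.toLp 2 (Y i *ᵥ (vcol X v (τ i y)).ofLp) : EuclideanSpace ℂ D) := by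
  ext b
  simp only [vcol, sumT, Matrix.mul_apply, Matrix.of_apply, Fintype.sum_prod_type,
    WithLp.ofLp_sum, Finset.sum_apply, Matrix.mulVec, dotProduct, Finset.sum_mul, ite_mul,
    zero_mul]
  rw [Finset.sum_comm]
  simp only [Finset.sum_comm (s := (Finset.univ : Finset H)) (t := (Finset.univ : Finset (Fin r))),
    Finset.sum_ite_eq', Finset.mem_univ, if_true]
  rw [Finset.sum_comm]

omit [DecidableEq D] in
theorem norm_col_complex (z : D → ℂ) :
    ‖col z‖ = ‖(WithLp.toLp 2 z : EuclideanSpace ℂ D)‖ ^ 2 := by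
  have h1 : col z = ((∑ a, ‖z a‖ ^ 2 : ℝ) : ℂ) := by
    rw [col]
    push_cast
    refine Finset.sum_congr rfl fun a _ => ?_
    rw [Complex.star_def, Complex.conj_mul']
  rw [h1, Complex.norm_real, EuclideanSpace.norm_sq_eq,
    Real.norm_of_nonneg (Finset.sum_nonneg fun _ _ => by positivity)]

omit [DecidableEq D] in
theorem norm_mulVec_le {Y : Matrix D D ℂ} {M : ℝ} (hM : 0 ≤ M) (h : Bd (fun a b => Y a b) (M ^ 2))
    (v : EuclideanSpace ℂ D) :
    ‖(WithLp.toLp 2 (Y *ᵥ v.ofLp) : EuclideanSpace ℂ D)‖ ≤ M * ‖v‖ := by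
  have h1 := norm_mono (col_nonneg _) (h v.ofLp)
  rw [norm_smul, norm_col_complex, norm_col_complex, Real.norm_of_nonneg (by positivity),
    ← mul_pow] at h1
  exact le_of_pow_le_pow_left₀ two_ne_zero (by positivity) h1

theorem walk {r R : ℕ} {τ : Fin r → H → H} {l : H → H → ℕ}
    (h1 : ∀ i, Function.Involutive (τ i)) (h0 : ∀ x, l x x = 0)
    (h2 : ∀ x y i, l x (τ i y) ≤ l x y + 1)
    (h3 : ∀ x y, l x y < R → ∀ i j, l x (τ i y) ≤ l x y → l x (τ j y) ≤ l x y → i = j)
    {t M : ℝ} (ht : 0 < t) (ht1 : t ≤ 1) (hM : 0 ≤ M) {Y : Fin r → Matrix D D ℂ}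
    (hY : ∀ i, Bd (fun a b => Y i a b) (M ^ 2)) (v : H × D) (n : ℕ) (hn : n ≤ R) :
    (∀ y, n < l v.1 y → ‖vcol (sumT τ Y ^ n) v y‖ = 0) ∧
      ∑ y, ‖vcol (sumT τ Y ^ n) v y‖ * t ^ l v.1 y ≤ (M * (1 / t + r * t)) ^ n := by
  induction n with
  | zero =>
    have e1 : ∀ y, y ≠ v.1 → ‖vcol (sumT τ Y ^ 0) v y‖ = 0 := by
      intro y hy
      rw [norm_eq_zero]
      ext b
      simp only [vcol, pow_zero, Matrix.one_apply, PiLp.zero_apply]
      exact if_neg fun h => hy (congrArg Prod.fst h)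
    refine ⟨fun y hy => e1 y ?_, ?_⟩
    · rintro rfl
      rw [h0] at hy
      exact lt_irrefl _ hy
    · rw [Finset.sum_eq_single v.1 (fun y _ hy => by rw [e1 y hy, zero_mul])
        (fun h => absurd (Finset.mem_univ _) h), h0, pow_zero, pow_zero, pow_zero, mul_one]
      have e2 : vcol (1 : Matrix (H × D) (H × D) ℂ) v v.1 = EuclideanSpace.single v.2 (1 : ℂ) := by
        ext b
        obtain ⟨x, a⟩ := v
        simp [vcol, Matrix.one_apply]
      rw [e2]
      simp
  | succ n ih =>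
    obtain ⟨i1, i2⟩ := ih (by omega)
    have e1 : ∀ y, ‖vcol (sumT τ Y ^ (n + 1)) v y‖ ≤
        M * ∑ i, ‖vcol (sumT τ Y ^ n) v (τ i y)‖ := by
      intro y
      rw [pow_succ', vcol_mul, Finset.mul_sum]
      refine norm_sum_le_of_le _ fun i _ => ?_
      exact norm_mulVec_le hM (hY i) _
    refine ⟨fun y hy => le_antisymm ((e1 y).trans (le_of_eq ?_)) (norm_nonneg _), ?_⟩
    · rw [Finset.sum_eq_zero, mul_zero]
      intro i _
      refine i1 _ ?_
      have := h2 v.1 (τ i y) i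
      rw [h1 i y] at this
      omega
    · refine (walk_step (R := R) h1 (h2 v.1) (h3 v.1) ht ht1 hM (by omega)
        (fun _ => norm_nonneg _) i1 e1).trans ?_
      rw [pow_succ']
      exact mul_le_mul_of_nonneg_left i2 (by positivity)

end

/-- the scalar estimate -/
theorem scalar_main {r : ℕ} (hr : 1 ≤ r) {D : Type} [Fintype D] [DecidableEq D]
    {Y : Fin r → Matrix D D ℂ} (hYs : ∀ i, star (Y i) = Y i) {M : ℝ} (hM : 0 < M)
    (hY : ∀ i, Bd (fun a b => Y i a b) (M ^ 2)) :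
    ∃ (H : Type) (_ : Fintype H) (_ : DecidableEq H) (_ : Nonempty H) (τ : Fin r → H → H)
      (f : H → H → ℂ), (∀ i, Function.Involutive (τ i)) ∧ SF f 1 ∧
      (Fintype.card H : ℝ) / 2 ≤ ∑ p, ∑ q, ‖f p q‖ ^ 2 ∧
      SF (fun (p q : H × D) => ∑ i, f p.1 (τ i q.1) * Y i p.2 q.2) (8 * r * M ^ 2) := by
  set d : ℕ := Fintype.card D with hd
  set k : ℕ := 4 * d * (d + 1) with hk
  set m : ℕ := 2 ^ k with hm
  obtain ⟨H, i1, i2, i3, τ, l, h1, h0, h2, h3⟩ := girth r (2 * m)
  have hr0 : (0 : ℝ) < r := by exact_mod_cast hr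
  have hr1 : (1 : ℝ) ≤ r := by exact_mod_cast hr
  have hs0 : 0 < √(r : ℝ) := Real.sqrt_pos.2 hr0
  have hs1 : 1 ≤ √(r : ℝ) := Real.one_le_sqrt.2 hr1
  have hss : √(r : ℝ) * √(r : ℝ) = r := Real.mul_self_sqrt hr0.le
  set S := sumT τ Y with hS
  have hSs : star S = S := star_sumT h1 hYs
  set K : ℝ := (4 * r * M ^ 2) ^ m with hK
  have hK0 : 0 < K := by positivity
  have hdiag : ∀ v : H × D, ‖(S ^ (2 * m)) v v‖ ≤ K := by
    intro v
    obtain ⟨-, w2⟩ := walk (t := 1 / √(r : ℝ)) h1 h0 h2 h3 (by positivity)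
      (by rw [div_le_one hs0]; exact hs1) hM.le hY v (2 * m) le_rfl
    have e1 : M * (1 / (1 / √(r : ℝ)) + r * (1 / √(r : ℝ))) = 2 * √(r : ℝ) * M := by
      rw [one_div_one_div, mul_one_div, Real.div_sqrt]; ring
    have e2 : (2 * √(r : ℝ) * M) ^ (2 * m) = K := by
      rw [pow_mul, hK]
      congr 1
      calc _ = 4 * (√(r : ℝ) * √(r : ℝ)) * M ^ 2 := by ring
        _ = _ := by rw [hss]
    rw [e1, e2] at w2
    have e3 := Finset.single_le_sum
      (f := fun y => ‖vcol (S ^ (2 * m)) v y‖ * (1 / √(r : ℝ)) ^ l v.1 y)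
      (fun y _ => by positivity) (Finset.mem_univ v.1)
    simp only [h0, pow_zero, mul_one] at e3
    exact (PiLp.norm_apply_le (vcol (S ^ (2 * m)) v v.1) v.2).trans (e3.trans w2)
  have hP : S ^ (2 * m) = star (S ^ m) * S ^ m := by rw [star_pow, hSs, two_mul, pow_add]
  have hP0 : 0 ≤ S ^ (2 * m) := by rw [hP]; exact star_mul_self_nonneg _
  set ρ := ptr (S ^ (2 * m)) with hρ
  set c : ℝ := 4 * (d + 1) * K with hc
  have hc0 : 0 < c := by positivity
  obtain ⟨f, f1, f2, f3, f4⟩ := exists_cutoff (ptr_nonneg hP0) hc0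
  set F : Matrix (H × D) (H × D) ℂ := f ⊗ₖ (1 : Matrix D D ℂ) with hF
  have hFs : star F = F := by
    rw [hF, Matrix.star_eq_conjTranspose, Matrix.conjTranspose_kronecker,
      Matrix.conjTranspose_one, ← Matrix.star_eq_conjTranspose, f1]
  have hF1 : ‖F‖ ≤ 1 := by
    have e1 : star F * F ≤ (1 : ℝ) • (1 : Matrix (H × D) (H × D) ℂ) := by
      rw [hFs, hF, ← Matrix.mul_kronecker_mul, mul_one]
      exact kron_le (by rwa [one_smul])
    rw [one_smul] at e1
    have e2 := (CStarAlgebra.norm_le_one_iff_of_nonneg _ (star_mul_self_nonneg F)).2 e1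
    rw [CStarRing.norm_star_mul_self] at e2
    nlinarith [norm_nonneg F]
  have hFP : ‖star F * (S * S) ^ m * F‖ ≤ d * c := by
    have e1 : star F * (S * S) ^ m * F = star (S ^ m * F) * (S ^ m * F) := by
      rw [← sq, ← pow_mul, hP, star_mul]; simp only [mul_assoc]
    have e2 : ptr (star (S ^ m * F) * (S ^ m * F)) = f * ρ * f := by
      rw [← e1, ← sq, ← pow_mul, hFs, hF, ptr_conj]
    have e3 := le_ptr (S ^ m * F)
    rw [e2] at e3
    have e4 := e3.trans (rsmul_le (Nat.cast_nonneg _) (kron_le f3))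
    rw [smul_smul, ← Algebra.algebraMap_eq_smul_one] at e4
    rw [e1]
    exact (CStarAlgebra.norm_le_iff_le_algebraMap _ (by positivity) (star_mul_self_nonneg _)).2 e4
  have hFT : ‖star F * (S * S) * F‖ ≤ 8 * r * M ^ 2 := by
    have e1 := (norm_conj_pow hF1 (T := S * S) (by rw [star_mul, hSs]) k).trans hFP
    have e2 : (k : ℝ) ≤ 2 ^ m := by
      have : k ≤ 2 ^ m := (Nat.lt_two_pow_self.trans Nat.lt_two_pow_self).le
      exact_mod_cast this
    have e3 : d * c ≤ (8 * r * M ^ 2) ^ m := by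
      calc d * c = k * K := by rw [hc, hk]; push_cast; ring
        _ ≤ 2 ^ m * K := by gcongr
        _ = _ := by rw [hK, ← mul_pow]; congr 1; ring
    exact le_of_pow_le_pow_left₀ (by positivity) (by positivity) (e1.trans e3)
  refine ⟨H, i1, i2, i3, τ, fun p q => f p q, h1, ?_, ?_, ?_⟩
  · exact sf_of_le (by rwa [f1, one_smul])
  · have e1 : ((∑ p, ∑ q, ‖f p q‖ ^ 2 : ℝ) : ℂ) = (f * f).trace := by
      simp only [Matrix.trace, Matrix.diag_apply, Matrix.mul_apply]
      push_cast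
      refine Finset.sum_congr rfl fun p _ => Finset.sum_congr rfl fun q _ => ?_
      have e2 : f q p = star (f p q) := by rw [← Matrix.star_apply, f1]
      rw [e2, Complex.star_def, Complex.mul_conj']
    have e2 := (Matrix.le_iff.1 f4).trace_nonneg
    rw [Matrix.trace_sub, Matrix.trace_sub, Matrix.trace_smul, Matrix.trace_one, ← e1] at e2
    have e3 : ‖ρ.trace‖ ≤ Fintype.card H * (d * K) := by
      simp only [Matrix.trace, Matrix.diag_apply, hρ, ptr, Matrix.of_apply]
      calc _ ≤ ∑ _p : H, ∑ _a : D, K :=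
            norm_sum_le_of_le _ fun p _ => norm_sum_le_of_le _ fun a _ => hdiag (p, a)
        _ = _ := by simp [hd]
    have e4 := (Complex.nonneg_iff.1 e2).1
    simp only [Complex.sub_re, Complex.ofReal_re, Complex.natCast_re, Complex.smul_re,
      smul_eq_mul] at e4
    have e5 : ρ.trace.re ≤ Fintype.card H * (d * K) := (Complex.re_le_norm _).trans e3
    have e6 : 2 / c * (Fintype.card H * (d * K)) ≤ Fintype.card H / 2 := by
      rw [hc, div_mul_eq_mul_div, div_le_div_iff₀ (by positivity) (by norm_num)]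
      have : (0 : ℝ) ≤ Fintype.card H * K := by positivity
      nlinarith
    have e7 : 2 / c * ρ.trace.re ≤ 2 / c * (Fintype.card H * (d * K)) := by gcongr
    linarith
  · have e1 : (fun (p q : H × D) => ∑ i, f p.1 (τ i q.1) * Y i p.2 q.2) =
        fun p q => (F * S) p q := by
      funext ⟨p, a⟩ ⟨q, b⟩
      have e2 : (F * S) (p, a) (q, b) = ∑ s, f p s * S (s, a) (q, b) := by
        simp only [hF, Matrix.mul_apply, Fintype.sum_prod_type, kroneckerMap_apply,
          Matrix.one_apply, mul_ite, mul_one, mul_zero, ite_mul, zero_mul, Finset.sum_ite_eq,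
          Finset.mem_univ, if_true]
      rw [e2]
      simp only [hS, sumT, Matrix.of_apply, Finset.mul_sum, mul_ite, mul_zero]
      rw [Finset.sum_comm]
      refine Finset.sum_congr rfl fun i _ => ?_
      rw [Finset.sum_eq_single (τ i q)]
      · rw [if_pos (h1 i q).symm]
      · intro s _ hs
        exact if_neg fun h => hs (by rw [h, h1 i s])
      · intro h
        exact absurd (Finset.mem_univ _) h
    rw [e1]
    refine sf_of_norm ?_
    have e2 : (F * S) * star (F * S) = star F * (S * S) * F := by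
      rw [star_mul, hSs, hFs]; simp only [mul_assoc]
    rw [sq, ← CStarRing.norm_self_mul_star, e2]
    exact hFT

end Vale.Agent.P133Z
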