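import Vale.Agent.P133Z.Core

/-!
P133 (helper93): the perturbation and its compressions.
-/

open scoped ComplexOrder

namespace Vale.Agent.P133Z

section

variable {B : Type*} [NonUnitalCStarAlgebra B]

/-- the perturbation -/
def pert {n r : ℕ} {H : Type} [Fintype H] (V : Option (Fin r) × Fin n → B) (x : Fin n → H → B)
    (τ : Fin r → H → H) : B :=
  ∑ i, ∑ j, ∑ j', V (some i, j) * phi x (τ i) j j' * star (V (some i, j'))

theorem map_phi {C : Type*} [NonUnitalCStarAlgebra C] (π : B →⋆ₙₐ[ℂ] C) {J H : Type*} [Fintype H]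
    (x : J → H → B) (τ : H → H) (j j' : J) :
    π (phi x τ j j') = phi (fun j p => π (x j p)) τ j j' := by
  simp only [phi, map_sum, map_mul, map_star]

theorem map_pert {C : Type*} [NonUnitalCStarAlgebra C] (π : B →⋆ₙₐ[ℂ] C) {n r : ℕ} {H : Type}
    [Fintype H] (V : Option (Fin r) × Fin n → B) (x : Fin n → H → B) (τ : Fin r → H → H) :
    π (pert V x τ) = pert (fun p => π (V p)) (fun j p => π (x j p)) τ := by
  simp only [pert, map_sum, map_mul, map_star, map_phi]

theorem star_phi {J H : Type*} [Fintype H] (x : J → H → B) {τ : H → H}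
    (hτ : Function.Involutive τ) (j j' : J) : star (phi x τ j j') = phi x τ j' j := by
  simp only [phi, star_sum, star_mul, star_star]
  rw [← Equiv.sum_comp hτ.toPerm]
  simp only [Function.Involutive.coe_toPerm, hτ _]

theorem star_pert {n r : ℕ} {H : Type} [Fintype H] (V : Option (Fin r) × Fin n → B)
    (x : Fin n → H → B) {τ : Fin r → H → H} (hτ : ∀ i, Function.Involutive (τ i)) :
    star (pert V x τ) = pert V x τ := by
  simp only [pert, star_sum, star_mul, star_star, star_phi x (hτ _), mul_assoc]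
  refine Finset.sum_congr rfl fun i _ => ?_
  rw [Finset.sum_comm]

theorem unit_phi {J H : Type*} [Fintype H] {x : J → H → B} {e : B} (hes : star e = e)
    (he : ∀ j p, e * x j p = x j p) (τ : H → H) (j j' : J) :
    e * phi x τ j j' * e = phi x τ j j' := by
  have h1 : ∀ j p, star (x j p) * e = star (x j p) := fun j p => by
    rw [← hes, ← star_mul, he]
  simp only [phi, Finset.mul_sum, Finset.sum_mul, ← mul_assoc, he]
  simp only [mul_assoc, h1]

theorem compress {n r : ℕ} {V : Option (Fin r) × Fin n → B} {e : B} {β : ℝ}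
    (hV : ∀ p q, ‖star (V p) * V q - (if p = q then e else 0)‖ ≤ β) (he : ‖e‖ ≤ 1) (hβ : 0 ≤ β)
    (hβ1 : β ≤ 1) {Φ : Fin r → Fin n → Fin n → B} (hΦ : ∀ i j j', ‖Φ i j j'‖ ≤ 2)
    (heΦ : ∀ i j j', e * Φ i j j' * e = Φ i j j') (I : Option (Fin r)) (j j' : Fin n) :
    ‖star (V (I, j)) * (∑ i, ∑ a, ∑ a', V (some i, a) * Φ i a a' * star (V (some i, a'))) *
      V (I, j') - (I.elim 0 fun i => Φ i j j')‖ ≤ r * (n * (n * (6 * β))) := by
  let D : Option (Fin r) × Fin n → Option (Fin r) × Fin n → B := fun p q => if p = q then e else 0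
  have hD : ∀ p q, ‖D p q‖ ≤ 1 := by
    intro p q
    simp only [D]
    split_ifs
    · exact he
    · rw [norm_zero]; exact zero_le_one
  have h1 : (I.elim 0 fun i => Φ i j j') =
      ∑ i, ∑ a, ∑ a', D (I, j) (some i, a) * Φ i a a' * D (some i, a') (I, j') := by
    cases I with
    | none => simp [D]
    | some i0 =>
      simp only [D, Option.elim, Prod.mk.injEq, Option.some.injEq, ite_and, ite_mul, zero_mul,
        mul_ite, mul_zero, Finset.sum_ite_irrel, Finset.sum_const_zero, Finset.sum_ite_eq,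
        Finset.sum_ite_eq', Finset.mem_univ, if_true, heΦ]
  rw [h1]
  simp only [Finset.mul_sum, Finset.sum_mul, ← Finset.sum_sub_distrib]
  calc _ ≤ ∑ _i : Fin r, ∑ _a : Fin n, ∑ _a' : Fin n, 6 * β := by
        refine norm_sum_le_of_le _ fun i _ => norm_sum_le_of_le _ fun a _ =>
          norm_sum_le_of_le _ fun a' _ => ?_
        set P := star (V (I, j)) * V (some i, a) with hP
        set Q := star (V (some i, a')) * V (I, j') with hQ
        have e1 : star (V (I, j)) * (V (some i, a) * Φ i a a' * star (V (some i, a'))) * V (I, j') -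
            D (I, j) (some i, a) * Φ i a a' * D (some i, a') (I, j') =
            (P - D (I, j) (some i, a)) * Φ i a a' * Q +
              D (I, j) (some i, a) * Φ i a a' * (Q - D (some i, a') (I, j')) := by
          simp only [hP, hQ, sub_mul, mul_sub, mul_assoc]
          abel
        have e2 : ‖P - D (I, j) (some i, a)‖ ≤ β := hV _ _
        have e3 : ‖Q - D (some i, a') (I, j')‖ ≤ β := hV _ _
        have e4 : ‖Q‖ ≤ 2 := by
          calc ‖Q‖ = ‖(Q - D (some i, a') (I, j')) + D (some i, a') (I, j')‖ := by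
                rw [sub_add_cancel]
            _ ≤ β + 1 := (norm_add_le _ _).trans (add_le_add e3 (hD _ _))
            _ ≤ 2 := by linarith
        rw [e1]
        calc _ ≤ β * 2 * 2 + 1 * 2 * β := by
              refine (norm_add_le _ _).trans (add_le_add ?_ ?_)
              · exact (norm_mul_le _ _).trans (mul_le_mul ((norm_mul_le _ _).trans
                  (mul_le_mul e2 (hΦ _ _ _) (norm_nonneg _) hβ)) e4 (norm_nonneg _)
                  (by positivity))
              · exact (norm_mul_le _ _).trans (mul_le_mul ((norm_mul_le _ _).trans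
                  (mul_le_mul (hD _ _) (hΦ _ _ _) (norm_nonneg _) zero_le_one)) e3 (norm_nonneg _)
                  (by positivity))
          _ = _ := by ring
    _ = _ := by simp only [Finset.sum_const, Finset.card_univ, nsmul_eq_mul, Fintype.card_fin]

theorem norm_le_two_of {ι : Type*} [DecidableEq ι] {V : ι → B} {e : B} {β : ℝ}
    (hV : ∀ p q, ‖star (V p) * V q - (if p = q then e else 0)‖ ≤ β) (he : ‖e‖ ≤ 1)
    (hβ1 : β ≤ 1) (p : ι) : ‖V p‖ ≤ 2 := by
  have h1 := hV p p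
  rw [if_pos rfl] at h1
  have h2 : ‖star (V p) * V p‖ ≤ β + 1 := by
    calc _ = ‖(star (V p) * V p - e) + e‖ := by rw [sub_add_cancel]
      _ ≤ _ := (norm_add_le _ _).trans (add_le_add h1 he)
  rw [CStarRing.norm_star_mul_self] at h2
  nlinarith [norm_nonneg (V p)]

/-- the compressions of an almost scalar element -/
theorem compress_scalar {n r : ℕ} {V : Option (Fin r) × Fin n → B} {e : B} {β : ℝ}
    (hV : ∀ p q, ‖star (V p) * V q - (if p = q then e else 0)‖ ≤ β) (he : ‖e‖ ≤ 1) (hβ : 0 ≤ β)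
    (hβ1 : β ≤ 1) {Φ : Fin r → Fin n → Fin n → B} (hΦ : ∀ i j j', ‖Φ i j j'‖ ≤ 2)
    (heΦ : ∀ i j j', e * Φ i j j' * e = Φ i j j') {h : B} {l η L : ℝ} (hl : |l| ≤ L)
    (hs : ∀ p, ‖(h + ∑ i, ∑ a, ∑ a', V (some i, a) * Φ i a a' * star (V (some i, a'))) * V p -
      l • V p‖ ≤ η) (i : Fin r) (j j' : Fin n) :
    ‖star (V (some i, j)) * h * V (some i, j') - star (V (none, j)) * h * V (none, j') +
      Φ i j j'‖ ≤ 4 * η + 2 * L * β + 2 * (r * (n * (n * (6 * β)))) := by
  set k := ∑ i, ∑ a, ∑ a', V (some i, a) * Φ i a a' * star (V (some i, a')) with hk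
  have h1 := compress hV he hβ hβ1 hΦ heΦ (some i) j j'
  have h2 := compress hV he hβ hβ1 hΦ heΦ none j j'
  simp only [Option.elim, ← hk, sub_zero] at h1 h2
  have h3 : ∀ p q, ‖star (V p) * ((h + k) * V q - l • V q)‖ ≤ 2 * η := fun p q =>
    (norm_mul_le _ _).trans (by
      rw [norm_star]
      exact mul_le_mul (norm_le_two_of hV he hβ1 p) (hs q) (norm_nonneg _) (by norm_num))
  have h4 : ∀ I : Option (Fin r), ‖l • (star (V (I, j)) * V (I, j') -
      (if j = j' then e else 0))‖ ≤ L * β := by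
    intro I
    have h5 := hV (I, j) (I, j')
    simp only [Prod.mk.injEq, true_and] at h5
    rw [norm_smul, Real.norm_eq_abs]
    exact mul_le_mul hl h5 (norm_nonneg _) ((abs_nonneg _).trans hl)
  have e1 : star (V (some i, j)) * h * V (some i, j') - star (V (none, j)) * h * V (none, j') +
      Φ i j j' =
      star (V (some i, j)) * ((h + k) * V (some i, j') - l • V (some i, j')) -
      star (V (none, j)) * ((h + k) * V (none, j') - l • V (none, j')) +
      l • (star (V (some i, j)) * V (some i, j') - (if j = j' then e else 0)) -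
      l • (star (V (none, j)) * V (none, j') - (if j = j' then e else 0)) -
      (star (V (some i, j)) * k * V (some i, j') - Φ i j j') +
      star (V (none, j)) * k * V (none, j') := by
    simp only [mul_sub, add_mul, mul_add, mul_smul_comm, smul_sub, mul_assoc]
    abel
  rw [e1]
  have t1 := h3 (some i, j) (some i, j')
  have t2 := h3 (none, j) (none, j')
  have t3 := h4 (some i)
  have t4 := h4 none
  refine (norm_add_le _ _).trans ?_
  refine (add_le_add (norm_sub_le _ _) h2).trans ?_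
  refine (add_le_add (add_le_add (norm_sub_le _ _) h1) le_rfl).trans ?_
  refine (add_le_add (add_le_add (add_le_add (norm_add_le _ _) t4) le_rfl) le_rfl).trans ?_
  refine (add_le_add (add_le_add (add_le_add (add_le_add (norm_sub_le _ _) t3) le_rfl) le_rfl)
    le_rfl).trans ?_
  linarith

variable [PartialOrder B] [StarOrderedRing B]

theorem norm_phi_le {J H : Type*} [Fintype J] [Fintype H] [DecidableEq H] {x : J → H → B} {g : B}
    {b : ℝ} (h : Orth x g b) (hg : 0 ≤ g) (hb : 0 ≤ b) {τ : H → H} (hτ : Function.Involutive τ)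
    (j j' : J) : ‖phi x τ j j'‖ ≤ ‖g‖ + (Fintype.card H : ℝ) ^ 2 * b :=
  norm_perm_sum_le hτ (h.row hg hb j) (h.row hg hb j')

theorem norm_pert_le {n r : ℕ} {H : Type} [Fintype H] [DecidableEq H]
    {V : Option (Fin r) × Fin n → B} {e : B} {β : ℝ}
    (hV : ∀ p q, ‖star (V p) * V q - (if p = q then e else 0)‖ ≤ β) (he0 : 0 ≤ e) (he : ‖e‖ ≤ 1)
    (hβ : 0 ≤ β) (hβ1 : ((r : ℝ) * n) ^ 2 * β ≤ 1) {x : Fin n → H → B} {g : B} {b : ℝ}
    (hx : Orth x g b) (hg : 0 ≤ g) (hb : 0 ≤ b) {τ : Fin r → H → H}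
    (hτ : ∀ i, Function.Involutive (τ i)) :
    ‖pert V x τ‖ ≤ n * (‖g‖ + (Fintype.card H : ℝ) ^ 2 * b) * 2 := by
  set c : ℝ := ‖g‖ + (Fintype.card H : ℝ) ^ 2 * b with hc
  have hc0 : 0 ≤ c := by positivity
  let ξ : Fin r × H → B := fun p => ∑ j, V (some p.1, j) * x j p.2
  have h1 : pert V x τ = ∑ p : Fin r × H, ξ (p.1, τ p.1 p.2) * star (ξ p) := by
    simp only [pert, phi, ξ, Fintype.sum_prod_type, star_sum, star_mul, Finset.mul_sum,
      Finset.sum_mul, mul_assoc]
    refine Finset.sum_congr rfl fun i _ => ?_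
    symm
    rw [Finset.sum_comm]
    rw [Finset.sum_comm (s := (Finset.univ : Finset (Fin n))) (t := (Finset.univ : Finset (Fin n)))]
    refine Finset.sum_congr rfl fun j _ => ?_
    rw [Finset.sum_comm]
  have h2 : Function.Involutive fun p : Fin r × H => (p.1, τ p.1 p.2) := fun p => by
    simp only [hτ p.1 p.2]
  have h3 : Orth (fun (_ : Unit) (p : Fin r × Fin n) => V (some p.1, p.2)) e β := by
    intro p q
    have h4 := hV (some p.1, p.2) (some q.1, q.2)
    simp only [Prod.mk.injEq, Option.some.injEq, ← Prod.ext_iff] at h4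
    simpa only [Fintype.sum_unique] using h4
  have h4 := h3.row he0 hβ ()
  rw [Fintype.card_prod, Fintype.card_fin, Fintype.card_fin, Nat.cast_mul] at h4
  have h5 : col (fun p => star (ξ p)) ≤
      ((n : ℝ) * c) • col fun p : Fin r × Fin n => star (V (some p.1, p.2)) := by
    have e1 : col (fun p => star (ξ p)) =
        ∑ i, col fun q => ∑ j, star (x j q) * star (V (some i, j)) := by
      simp only [col, ξ, Fintype.sum_prod_type, star_sum, star_mul]
    have e2 : col (fun p : Fin r × Fin n => star (V (some p.1, p.2))) =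
        ∑ i, ∑ j, V (some i, j) * star (V (some i, j)) := by
      simp only [col, Fintype.sum_prod_type, star_star]
    rw [e1, e2, Finset.smul_sum]
    refine Finset.sum_le_sum fun i _ => (col_sum_le _).trans ?_
    rw [Fintype.card_fin, mul_smul]
    refine rsmul_le (Nat.cast_nonneg _) ?_
    rw [Finset.smul_sum]
    refine Finset.sum_le_sum fun j _ => ?_
    have e3 : col (fun q => star (x j q) * star (V (some i, j))) =
        star (star (V (some i, j))) * col (fun q => star (x j q)) * star (V (some i, j)) := by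
      simp only [col, star_mul, Finset.mul_sum, Finset.sum_mul, mul_assoc]
    rw [e3]
    refine (conj_le_norm _ (col_nonneg _)).trans ?_
    rw [star_star]
    exact rsmul_mono (mul_star_self_nonneg _) (hx.row hg hb j)
  have h6 : ‖col fun p => star (ξ p)‖ ≤ n * c * 2 := by
    refine (norm_mono (col_nonneg _) h5).trans ?_
    rw [norm_smul, Real.norm_of_nonneg (by positivity)]
    exact mul_le_mul_of_nonneg_left (h4.trans (by linarith)) (by positivity)
  rw [h1]
  exact norm_perm_sum_le h2 h6 h6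

omit [PartialOrder B] [StarOrderedRing B] in
theorem small_of_large {n r : ℕ} {H : Type} [Fintype H] [DecidableEq H] [Nonempty H]
    {V : Option (Fin r) × Fin n → B} {e : B} {β : ℝ}
    (hV : ∀ p q, ‖star (V p) * V q - (if p = q then e else 0)‖ ≤ β) (hβ : β ≤ 1 / 4)
    {x : Fin n → H → B} {g : B} {b : ℝ} (hx : Orth x g b) (hex : ∀ j p, e * x j p = x j p)
    {h : B} {l L : ℝ} (hh : ‖h‖ + 4 ≤ L) (hl : L < |l|) (hs : ∀ p, ‖h * V p - l • V p‖ ≤ 1) :
    ‖g‖ ≤ b := by
  have k1 : ∀ j p, x j p = 0 := by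
    intro j p
    have k2 : ‖V (none, j)‖ ≤ 1 / 2 := by
      have k4 : ‖l • V (none, j)‖ ≤ ‖h * V (none, j)‖ + 1 := by
        have := norm_sub_norm_le (l • V (none, j)) (h * V (none, j))
        rw [norm_sub_rev] at this
        linarith [hs (none, j)]
      rw [norm_smul, Real.norm_eq_abs] at k4
      have k5 := norm_mul_le h (V (none, j))
      have k6 := mul_le_mul_of_nonneg_right (hh.trans hl.le) (norm_nonneg (V (none, j)))
      linarith
    have k3 : ‖e‖ ≤ 1 / 2 := by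
      have k4 := hV (none, j) (none, j)
      rw [if_pos rfl] at k4
      have k5 := norm_sub_norm_le e (star (V (none, j)) * V (none, j))
      rw [norm_sub_rev, CStarRing.norm_star_mul_self] at k5
      have k6 := mul_le_mul k2 k2 (norm_nonneg _) (by norm_num)
      linarith
    have k4 : ‖x j p‖ ≤ ‖e‖ * ‖x j p‖ := by
      conv_lhs => rw [← hex]
      exact norm_mul_le _ _
    have k5 := mul_le_mul_of_nonneg_right k3 (norm_nonneg (x j p))
    rw [← norm_le_zero_iff]
    linarith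
  obtain ⟨p⟩ := ‹Nonempty H›
  have k2 := hx p p
  simpa only [k1, mul_zero, Finset.sum_const_zero, if_true, zero_sub, norm_neg] using k2

theorem small_of_bounded {n r : ℕ} (hr : 1 ≤ r) {H : Type} [Fintype H] [DecidableEq H]
    [Nonempty H] {τ : Fin r → H → H} (hτ : ∀ i, Function.Involutive (τ i)) {f : H → H → ℂ}
    (hf : SF f 1) (hf2 : (Fintype.card H : ℝ) / 2 ≤ ∑ p, ∑ q, ‖f p q‖ ^ 2)
    {V : Option (Fin r) × Fin n → B} {e : B} {β : ℝ}
    (hV : ∀ p q, ‖star (V p) * V q - (if p = q then e else 0)‖ ≤ β) (hes : star e = e)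
    (he : ‖e‖ ≤ 1) (hβ : 0 ≤ β) (hβ1 : β ≤ 1) {x : Fin n → H → B} {g : B} (hg : 0 ≤ g)
    (hg1 : ‖g‖ ≤ 1) {b : ℝ} (hb : 0 ≤ b) (hb1 : b ≤ 1) (hb2 : (Fintype.card H : ℝ) ^ 2 * b ≤ 1)
    (hx : Orth x g b) (hex : ∀ j p, e * x j p = x j p) {h : B} {C ε l η L : ℝ} (hC : 0 ≤ C)
    (hy : col (fun p : H × Fin n => ∑ q : H × Fin n,
      (∑ i, f p.1 (τ i q.1) • (star (V (some i, p.2)) * h * V (some i, q.2) -
        star (V (none, p.2)) * h * V (none, q.2))) * x q.2 q.1) ≤
          C • col fun q : H × Fin n => x q.2 q.1)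
    (hl : |l| ≤ L) (hs : ∀ p, ‖(h + pert V x τ) * V p - l • V p‖ ≤ η)
    (hε : 4 * η + 2 * L * β + 2 * (r * (n * (n * (6 * β)))) ≤ ε) :
    ‖g‖ ^ 4 ≤ 16 * C / r ^ 2 + 16 * n ^ 2 * ε ^ 2 +
      (16 * n * (Fintype.card H : ℝ) ^ 4 + 2 * (Fintype.card H : ℝ) ^ 2) * b :=
  core hr hτ hf hf2 hg hg1 hb hb1 hx (y := fun i j j' => star (V (some i, j)) * h * V (some i, j') -
    star (V (none, j)) * h * V (none, j')) hC hy fun i j j' =>
    (compress_scalar hV he hβ hβ1 (Φ := fun i j j' => phi x (τ i) j j')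
      (fun i j j' => (norm_phi_le hx hg hb (hτ i) j j').trans (by linarith))
      (fun i j j' => unit_phi hes hex _ j j') hl hs i j j').trans hε

end

theorem param_one (n : ℕ) {θ : ℝ} (hθ : 0 < θ) : ∃ t : ℝ, 0 < t ∧ t ≤ 1 / 2 ∧
    n * (t + t) * 2 ≤ θ := by
  refine ⟨min (1 / 2) (θ / (4 * (n + 1))), lt_min (by norm_num) (by positivity), min_le_left _ _,
    ?_⟩
  have h1 : min (1 / 2) (θ / (4 * (n + 1))) ≤ θ / (4 * (n + 1)) := min_le_right _ _
  have h0 : 0 < min (1 / 2) (θ / (4 * (n + 1))) := lt_min (by norm_num) (by positivity)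
  rw [le_div_iff₀ (by positivity)] at h1
  nlinarith

theorem param_two (n : ℕ) {t : ℝ} (ht : 0 < t) (ht1 : t ≤ 1 / 2) (M : ℝ) {L : ℝ} (hL : 0 ≤ L) :
    ∃ (r : ℕ) (ε β : ℝ), 1 ≤ r ∧ 0 < ε ∧ ε ≤ 1 ∧ 0 < β ∧ β ≤ 1 / 4 ∧
      ((r : ℝ) * n) ^ 2 * β ≤ 1 ∧
      4 * (ε / 8) + 2 * L * β + 2 * (r * (n * (n * (6 * β)))) ≤ ε ∧
      16 * (18 * r * ((n + 1) * M) ^ 2) / r ^ 2 + 16 * n ^ 2 * ε ^ 2 ≤ 2 * t ^ 4 / 3 := by
  obtain ⟨r, hr⟩ := exists_nat_ge (1 + 864 * ((n + 1) * M) ^ 2 / t ^ 4)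
  have hq0 : 0 ≤ 864 * ((n + 1) * M) ^ 2 / t ^ 4 := by positivity
  have hr1' : (1 : ℝ) ≤ r := by linarith
  have hr1 : 1 ≤ r := by exact_mod_cast hr1'
  have hr0 : (0 : ℝ) < r := by linarith
  have hn : (0 : ℝ) ≤ n := Nat.cast_nonneg n
  obtain ⟨ε, hε⟩ : ∃ ε : ℝ, ε = t ^ 2 / (7 * (n + 1)) := ⟨_, rfl⟩
  have hε0 : 0 < ε := by rw [hε]; positivity
  have hε1 : ε ≤ 1 := by
    rw [hε, div_le_one (by positivity)]
    nlinarith
  obtain ⟨β, hβ⟩ : ∃ β : ℝ,
    β = min (1 / (((r : ℝ) * n) ^ 2 + 4)) (ε / (2 * (2 * L + 12 * r * n ^ 2 + 1))) := ⟨_, rfl⟩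
  have hβ0 : 0 < β := by rw [hβ]; exact lt_min (by positivity) (by positivity)
  have hβ1 : (((r : ℝ) * n) ^ 2 + 4) * β ≤ 1 := by
    have : β ≤ 1 / (((r : ℝ) * n) ^ 2 + 4) := by rw [hβ]; exact min_le_left _ _
    rwa [le_div_iff₀ (by positivity), mul_comm] at this
  have hβ2 : β * (2 * (2 * L + 12 * r * n ^ 2 + 1)) ≤ ε := by
    have : β ≤ ε / (2 * (2 * L + 12 * r * n ^ 2 + 1)) := by rw [hβ]; exact min_le_right _ _
    rwa [le_div_iff₀ (by positivity)] at this
  have hβ3 : 0 ≤ ((r : ℝ) * n) ^ 2 * β := by positivity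
  have k3 : 16 * (18 * r * ((n + 1) * M) ^ 2) / r ^ 2 ≤ t ^ 4 / 3 := by
    have k4 : 864 * ((n + 1) * M) ^ 2 / t ^ 4 ≤ r := by linarith
    rw [div_le_iff₀ (by positivity)] at k4
    rw [div_le_div_iff₀ (by positivity) (by norm_num)]
    have k5 := mul_le_mul_of_nonneg_left k4 hr0.le
    linarith
  have k5 : 16 * n ^ 2 * ε ^ 2 ≤ t ^ 4 / 3 := by
    have k6 : n * ε ≤ t ^ 2 / 7 := by
      rw [hε, mul_div_assoc', div_le_div_iff₀ (by positivity) (by norm_num)]
      nlinarith [sq_nonneg t]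
    have k7 : (n * ε) ^ 2 ≤ (t ^ 2 / 7) ^ 2 := by gcongr
    have k8 : 0 ≤ t ^ 4 := by positivity
    nlinarith
  refine ⟨r, ε, β, hr1, hε0, hε1, hβ0, by linarith, by linarith, by linarith, by linarith⟩

theorem param_three (n : ℕ) {t : ℝ} (ht : 0 < t) (ht1 : t ≤ 1 / 2) {N : ℝ} (hN : 1 ≤ N) :
    ∃ b : ℝ, 0 < b ∧ b ≤ t ∧ N ^ 2 * b ≤ t ∧ (16 * n * N ^ 4 + 2 * N ^ 2) * b ≤ t ^ 4 / 3 := by
  have ht4 : t ^ 4 ≤ t := by
    calc t ^ 4 ≤ t ^ 1 := pow_le_pow_of_le_one ht.le (by linarith) (by norm_num)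
      _ = t := pow_one t
  obtain ⟨b, hb⟩ : ∃ b : ℝ, b = t ^ 4 / (3 * (16 * n * N ^ 4 + 2 * N ^ 2)) := ⟨_, rfl⟩
  have hb0 : 0 < b := by rw [hb]; positivity
  have hb1 : (16 * n * N ^ 4 + 2 * N ^ 2) * b = t ^ 4 / 3 := by
    rw [hb]; field_simp
  have hb2 : N ^ 2 * b ≤ t := by
    have : 0 ≤ 16 * n * N ^ 4 * b := by positivity
    have : 0 ≤ N ^ 2 * b := by positivity
    linarith
  have hb3 : b ≤ t := by
    have : 1 ≤ N ^ 2 := one_le_pow₀ hN
    nlinarith
  exact ⟨b, hb0, hb3, hb2, hb1.le⟩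

end Vale.Agent.P133Z
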