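import Vale.Agent.P133Z.TNorm
import Vale.Agent.P133Z.Scalar
import Mathlib.Analysis.CStarAlgebra.GelfandNaimarkSegal
import Mathlib.Analysis.InnerProductSpace.StarOrder
import Mathlib.Analysis.LocallyConvex.Separation
import Mathlib.Analysis.RCLike.Extend
import Mathlib.LinearAlgebra.TensorProduct.Finiteness

/-!
P133 (helper93): upper and lower bounds for the minimal norm.
-/

namespace Vale.Agent.P133Z

open scoped TensorProduct InnerProductSpace ComplexOrder ComplexStarModule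
open UniformSpace

section

variable {H K : Type*} [NormedAddCommGroup H] [InnerProductSpace ℂ H] [NormedAddCommGroup K]
  [InnerProductSpace ℂ K]

theorem norm_sq_eq_of_inner {v : H} {c : ℝ} (h : ⟪v, v⟫_ℂ = (c : ℂ)) : ‖v‖ ^ 2 = c := by
  rw [← inner_self_eq_norm_sq (𝕜 := ℂ), h]
  rfl

theorem norm_sum_tmul {ι : Type*} [Fintype ι] {e : ι → H} (he : Orthonormal ℂ e) (w : ι → K) :
    ‖∑ a, e a ⊗ₜ[ℂ] w a‖ ^ 2 = ∑ a, ‖w a‖ ^ 2 := by
  classical
  refine norm_sq_eq_of_inner ?_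
  simp only [sum_inner, inner_sum, TensorProduct.inner_tmul, orthonormal_iff_ite.1 he, ite_mul,
    one_mul, zero_mul, Finset.sum_ite_eq', Finset.mem_univ, if_true, inner_self_eq_norm_sq_to_K]
  push_cast
  rfl

theorem norm_sum_tmul' {ι : Type*} [Fintype ι] {e : ι → K} (he : Orthonormal ℂ e) (w : ι → H) :
    ‖∑ a, w a ⊗ₜ[ℂ] e a‖ ^ 2 = ∑ a, ‖w a‖ ^ 2 := by
  rw [← norm_sum_tmul he w, ← TensorProduct.norm_comm, map_sum]
  rfl

theorem col_complex {ι : Type*} [Fintype ι] (z : ι → ℂ) : col z = ((∑ a, ‖z a‖ ^ 2 : ℝ) : ℂ) := by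
  rw [col]
  push_cast
  refine Finset.sum_congr rfl fun a _ => ?_
  rw [Complex.star_def, Complex.conj_mul']

theorem bd_inner {ι : Type*} [Fintype ι] {e : ι → H} (he : Orthonormal ℂ e) (T : H →L[ℂ] H)
    {M : ℝ} (hT : ‖T‖ ≤ M) : Bd (fun a b => ⟪e a, T (e b)⟫_ℂ) (M ^ 2) := by
  intro z
  have h1 : ∀ a, ∑ b, ⟪e a, T (e b)⟫_ℂ * z b = ⟪e a, T (∑ b, z b • e b)⟫_ℂ := fun a => by
    simp only [map_sum, map_smul, inner_sum, inner_smul_right, mul_comm]
  have h2 : ‖∑ b, z b • e b‖ ^ 2 = ∑ b, ‖z b‖ ^ 2 := by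
    refine norm_sq_eq_of_inner ?_
    rw [he.inner_sum, ← col_complex]
    rfl
  have h3 := he.sum_inner_products_le (T (∑ b, z b • e b)) (s := Finset.univ)
  have h4 : ‖T (∑ b, z b • e b)‖ ≤ M * ‖∑ b, z b • e b‖ :=
    (T.le_opNorm _).trans (mul_le_mul_of_nonneg_right hT (norm_nonneg _))
  have h5 := pow_le_pow_left₀ (norm_nonneg _) h4 2
  rw [mul_pow, h2] at h5
  simp only [h1, col_complex, Complex.real_smul]
  exact_mod_cast h3.trans h5

theorem defect_bound [CompleteSpace K] {D : Type*} [Fintype D] [DecidableEq D]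
    {M L : D → D → (K →L[ℂ] K)} {P : K →L[ℂ] K} (hP : ‖P‖ ≤ 1) {C : ℝ} (hC : 0 ≤ C)
    (h : ∀ b b', ∑ a, star (M a b) * M a b' + ∑ s, star (L s b) * L s b' =
      if b = b' then (C : ℂ) • P else 0) (η : D → K) :
    ∑ a, ‖∑ b, M a b (η b)‖ ^ 2 ≤ C * ∑ b, ‖η b‖ ^ 2 := by
  have h1 : ∀ N : D → D → (K →L[ℂ] K), ((∑ a, ‖∑ b, N a b (η b)‖ ^ 2 : ℝ) : ℂ) =
      ∑ b, ∑ b', ⟪η b, (∑ a, star (N a b) * N a b') (η b')⟫_ℂ := by
    intro N
    simp only [sum_apply, inner_sum, mul_apply_eq_comp, ContinuousLinearMap.star_eq_adjoint,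
      ContinuousLinearMap.adjoint_inner_right]
    push_cast
    have h2 : ∀ a, ((‖∑ b, N a b (η b)‖ : ℝ) : ℂ) ^ 2 =
        ∑ b, ∑ b', ⟪N a b (η b), N a b' (η b')⟫_ℂ := fun a => by
      simp only [← inner_sum, ← sum_inner, inner_self_eq_norm_sq_to_K]
      rfl
    simp only [h2]
    rw [Finset.sum_comm]
    refine Finset.sum_congr rfl fun b _ => ?_
    rw [Finset.sum_comm]
  have h2 : ((∑ a, ‖∑ b, M a b (η b)‖ ^ 2 + ∑ a, ‖∑ b, L a b (η b)‖ ^ 2 : ℝ) : ℂ) =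
      ∑ b, (C : ℂ) * ⟪η b, P (η b)⟫_ℂ := by
    rw [Complex.ofReal_add, h1, h1, ← Finset.sum_add_distrib]
    refine Finset.sum_congr rfl fun b _ => ?_
    rw [← Finset.sum_add_distrib, Finset.sum_eq_single b]
    · rw [← inner_add_right, ← add_apply, h, if_pos rfl, smul_apply, inner_smul_right]
    · intro b' _ hb
      rw [← inner_add_right, ← add_apply, h, if_neg hb.symm, zero_apply, inner_zero_right]
    · exact fun hb => absurd (Finset.mem_univ _) hb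
  have h3 := congrArg norm h2
  rw [Complex.norm_real, Real.norm_of_nonneg (by positivity)] at h3
  have h4 : ‖∑ b, (C : ℂ) * ⟪η b, P (η b)⟫_ℂ‖ ≤ C * ∑ b, ‖η b‖ ^ 2 := by
    rw [Finset.mul_sum]
    refine norm_sum_le_of_le _ fun b _ => ?_
    rw [norm_mul, Complex.norm_real, Real.norm_of_nonneg hC, sq]
    refine mul_le_mul_of_nonneg_left ((norm_inner_le_norm _ _).trans
      (mul_le_mul_of_nonneg_left ((P.le_opNorm _).trans ?_) (norm_nonneg _))) hC
    exact mul_le_of_le_one_left (norm_nonneg _) hP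
  have h5 : 0 ≤ ∑ a, ‖∑ b, L a b (η b)‖ ^ 2 := by positivity
  linarith

end

section

variable {A B H K : Type*} [NonUnitalCStarAlgebra A] [NonUnitalCStarAlgebra B]
  [NormedAddCommGroup H] [InnerProductSpace ℂ H] [CompleteSpace H]
  [NormedAddCommGroup K] [InnerProductSpace ℂ K] [CompleteSpace K]

theorem upper (π : A →⋆ₙₐ[ℂ] (H →L[ℂ] H)) (σ : B →⋆ₙₐ[ℂ] (K →L[ℂ] K)) {ι : Type*} [Fintype ι]
    (y : ι → A) (g : ι → B) {c : ℝ} (hc : 0 ≤ c)
    (h : ∀ (D : ℕ) (e : Fin D → H), Orthonormal ℂ e → ∀ η : Fin D → K,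
      ∑ a, ‖∑ b, ∑ t, ⟪e a, π (y t) (e b)⟫_ℂ • σ (g t) (η b)‖ ^ 2 ≤ c ^ 2 * ∑ b, ‖η b‖ ^ 2) :
    ‖tensorRep π σ (∑ t, y t ⊗ₜ[ℂ] g t)‖ ≤ c := by
  refine ContinuousLinearMap.opNorm_le_bound _ hc fun ξ => ?_
  obtain ⟨m, u, v, rfl⟩ := TensorProduct.exists_sum_tmul_eq ξ
  let S : Submodule ℂ H :=
    Submodule.span ℂ (Set.range u ∪ Set.range fun p : ι × Fin m => π (y p.1) (u p.2))
  have : FiniteDimensional ℂ S :=
    FiniteDimensional.span_of_finite ℂ ((Set.finite_range _).union (Set.finite_range _))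
  let b := stdOrthonormalBasis ℂ S
  let e : Fin (Module.finrank ℂ S) → H := fun a => (b a : H)
  have he : Orthonormal ℂ e := b.orthonormal.comp_linearIsometry S.subtypeₗᵢ
  have hexp : ∀ w ∈ S, ∑ a, ⟪e a, w⟫_ℂ • e a = w := by
    intro w hw
    have h1 := congrArg (fun x : S => (x : H)) (b.sum_repr' ⟨w, hw⟩)
    simpa only [Submodule.coe_sum, Submodule.coe_smul, Submodule.coe_inner] using h1
  have hu : ∀ j, ∑ a, ⟪e a, u j⟫_ℂ • e a = u j := fun j =>
    hexp _ (Submodule.subset_span (Or.inl ⟨j, rfl⟩))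
  have hπ : ∀ t j, ∑ a, ⟪e a, π (y t) (u j)⟫_ℂ • e a = π (y t) (u j) := fun t j =>
    hexp _ (Submodule.subset_span (Or.inr ⟨(t, j), rfl⟩))
  let η : Fin (Module.finrank ℂ S) → K := fun a => ∑ j, ⟪e a, u j⟫_ℂ • v j
  have h1 : ∑ j, u j ⊗ₜ[ℂ] v j = ∑ a, e a ⊗ₜ[ℂ] η a := by
    simp only [η, TensorProduct.tmul_sum, ← TensorProduct.smul_tmul]
    rw [Finset.sum_comm]
    simp only [← TensorProduct.sum_tmul, hu]
  have h2 : tensorRep π σ (∑ t, y t ⊗ₜ[ℂ] g t) (∑ j, u j ⊗ₜ[ℂ] v j) =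
      ∑ a, e a ⊗ₜ[ℂ] ∑ b, ∑ t, ⟪e a, π (y t) (e b)⟫_ℂ • σ (g t) (η b) := by
    have e1 : ∀ a t j, ⟪e a, π (y t) (u j)⟫_ℂ =
        ∑ b, ⟪e a, π (y t) (e b)⟫_ℂ * ⟪e b, u j⟫_ℂ := fun a t j => by
      conv_lhs => rw [← hu j]
      simp only [map_sum, map_smul, inner_sum, inner_smul_right, mul_comm]
    have e2 : ∀ a, ∑ b, ∑ t, ⟪e a, π (y t) (e b)⟫_ℂ • σ (g t) (η b) =
        ∑ t, ∑ j, ⟪e a, π (y t) (u j)⟫_ℂ • σ (g t) (v j) := fun a => by
      rw [Finset.sum_comm]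
      refine Finset.sum_congr rfl fun t _ => ?_
      simp only [η, e1, map_sum, map_smul, Finset.smul_sum, smul_smul, Finset.sum_smul]
      rw [Finset.sum_comm]
    simp only [e2, map_sum, sum_apply, tensorRep_tmul, TensorProduct.mapL_tmul,
      TensorProduct.tmul_sum, ← TensorProduct.smul_tmul]
    rw [Finset.sum_comm]
    symm
    rw [Finset.sum_comm]
    refine Finset.sum_congr rfl fun t _ => ?_
    rw [Finset.sum_comm]
    simp only [← TensorProduct.sum_tmul, hπ]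
  refine le_of_pow_le_pow_left₀ two_ne_zero (by positivity) ?_
  rw [h2, h1, mul_pow, norm_sum_tmul he, norm_sum_tmul he]
  exact h _ e he η

/-- slices of elements of the algebraic tensor product -/
noncomputable def slice (φ : B →ₗ[ℂ] ℂ) : A ⊗[ℂ] B →ₗ[ℂ] A :=
  (TensorProduct.rid ℂ A).toLinearMap ∘ₗ LinearMap.lTensor A φ

theorem slice_tmul (φ : B →ₗ[ℂ] ℂ) (a : A) (b : B) : slice φ (a ⊗ₜ[ℂ] b) = φ b • a := by
  simp [slice]

variable {I : Type*} [Fintype I] [DecidableEq I]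

/-- the matrix entries of a finite-dimensional representation -/
noncomputable def entry (σ : B →⋆ₙₐ[ℂ] (EuclideanSpace ℂ I →L[ℂ] EuclideanSpace ℂ I)) (p q : I) :
    B →ₗ[ℂ] ℂ where
  toFun b := σ b (EuclideanSpace.single q 1) p
  map_add' b b' := by rw [map_add]; rfl
  map_smul' c b := by rw [map_smul]; rfl

theorem tensorRep_single (π : A →⋆ₙₐ[ℂ] (H →L[ℂ] H))
    (σ : B →⋆ₙₐ[ℂ] (EuclideanSpace ℂ I →L[ℂ] EuclideanSpace ℂ I)) (w : A ⊗[ℂ] B) (ζ : H) (q : I) :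
    tensorRep π σ w (ζ ⊗ₜ[ℂ] EuclideanSpace.single q 1) =
      ∑ p, π (slice (entry σ p q) w) ζ ⊗ₜ[ℂ] EuclideanSpace.single p (1 : ℂ) := by
  induction w using TensorProduct.induction_on with
  | zero => simp only [map_zero, zero_apply, TensorProduct.zero_tmul, Finset.sum_const_zero]
  | add x x' h h' =>
    simp only [map_add, add_apply, h, h', TensorProduct.add_tmul, Finset.sum_add_distrib]
  | tmul a b =>
    simp only [tensorRep_tmul, TensorProduct.mapL_tmul, slice_tmul, map_smul, smul_apply,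
      TensorProduct.smul_tmul, ← TensorProduct.tmul_sum]
    congr 1
    ext p
    simp [entry, Pi.single_apply]

variable [PartialOrder A] [StarOrderedRing A]

theorem nonneg_of_forall_pos {w : A} (hw : IsSelfAdjoint w)
    (h : ∀ f : A →ₚ[ℂ] ℂ, 0 ≤ (f w).re) : 0 ≤ w := by
  by_contra h0
  have hconv : Convex ℝ {a : A | 0 ≤ a} := by
    intro a ha b hb s t hs ht _
    exact add_nonneg (smul_nonneg hs ha) (smul_nonneg ht hb)
  have hclosed : IsClosed {a : A | 0 ≤ a} := isClosed_Ici (a := (0 : A))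
  obtain ⟨g, u, hgu, hg⟩ := geometric_hahn_banach_point_closed (E := A) hconv hclosed (x := w) h0
  have hu : u < 0 := by simpa using hg 0 (le_refl (0 : A))
  have hg0 : ∀ a : A, 0 ≤ a → 0 ≤ g a := by
    intro a ha
    by_contra hneg
    rw [not_le] at hneg
    have h1 := hg ((u / g a) • a) (smul_nonneg (div_nonneg_of_nonpos hu.le hneg.le) ha)
    rw [map_smul, smul_eq_mul, div_mul_cancel₀ _ hneg.ne] at h1
    exact lt_irrefl _ h1
  let r : A →ₗ[ℝ] ℝ := (g : A →ₗ[ℝ] ℝ) ∘ₗ (selfAdjoint.submodule ℝ A).subtype ∘ₗ realPart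
  have hr : ∀ a, r a = g (realPart a : A) := fun a => rfl
  let F : A →ₗ[ℂ] ℂ := Module.Dual.extendRCLike (𝕜 := ℂ) r
  have hF : ∀ a : A, IsSelfAdjoint a → F a = g a := by
    intro a ha
    have h1 : F a = (r a : ℂ) - Complex.I * (r (Complex.I • a) : ℂ) := rfl
    have h2 : (realPart a : A) = a := ha.coe_realPart
    have h3 : (realPart (Complex.I • a) : A) = 0 := by
      rw [realPart_I_smul]
      simp [ha.imaginaryPart]
    rw [h1, hr, hr, h2, h3, map_zero]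
    simp
  have h1 := h (PositiveLinearMap.mk₀ F fun a ha => by
    rw [hF a ha.isSelfAdjoint]
    exact_mod_cast hg0 a ha)
  have h2 : (F w).re = g w := by rw [hF w hw, Complex.ofReal_re]
  have h3 : 0 ≤ (F w).re := h1
  linarith

omit [DecidableEq I] in
theorem re_col (f : A →ₚ[ℂ] ℂ) (z : I → A) :
    (f (col z)).re = ∑ p, ‖((f.toPreGNS (z p) : f.PreGNS) : f.GNS)‖ ^ 2 := by
  rw [col, map_sum, Complex.re_sum]
  refine Finset.sum_congr rfl fun p _ => ?_
  have h := f.preGNS_norm_sq (f.toPreGNS (z p))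
  rw [PositiveLinearMap.ofPreGNS_toPreGNS] at h
  rw [Completion.norm_coe, ← h, ← Complex.ofReal_pow, Complex.ofReal_re]

theorem lower (σ : B →⋆ₙₐ[ℂ] (EuclideanSpace ℂ I →L[ℂ] EuclideanSpace ℂ I)) (w : A ⊗[ℂ] B)
    {c : ℝ} (h : ∀ f : A →ₚ[ℂ] ℂ, ‖tensorRep f.gnsNonUnitalStarAlgHom σ w‖ ≤ c) :
    Bd (fun p q => slice (entry σ p q) w) (c ^ 2) := by
  intro z
  rw [← sub_nonneg]
  refine nonneg_of_forall_pos (((IsSelfAdjoint.all _).smul
    (IsSelfAdjoint.of_nonneg (col_nonneg z))).sub (IsSelfAdjoint.of_nonneg (col_nonneg _)))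
    fun f => ?_
  rw [map_sub, ← Complex.coe_smul, map_smul, Complex.sub_re, smul_eq_mul, Complex.re_ofReal_mul,
    re_col, re_col, sub_nonneg]
  have he : Orthonormal ℂ fun q : I => EuclideanSpace.single q (1 : ℂ) :=
    EuclideanSpace.orthonormal_single
  let ζ : I → f.GNS := fun q => ((f.toPreGNS (z q) : f.PreGNS) : f.GNS)
  have h1 : tensorRep f.gnsNonUnitalStarAlgHom σ w (∑ q, ζ q ⊗ₜ[ℂ] EuclideanSpace.single q 1) =
      ∑ p, ((f.toPreGNS (∑ q, slice (entry σ p q) w * z q) : f.PreGNS) : f.GNS) ⊗ₜ[ℂ]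
        EuclideanSpace.single p (1 : ℂ) := by
    simp only [map_sum, tensorRep_single]
    rw [Finset.sum_comm]
    refine Finset.sum_congr rfl fun p _ => ?_
    rw [← TensorProduct.sum_tmul]
    congr 1
    have e1 := map_sum (Completion.toComplL (𝕜 := ℂ) (E := f.PreGNS))
      (fun q => f.toPreGNS (slice (entry σ p q) w * z q)) Finset.univ
    simp only [Completion.coe_toComplL] at e1
    rw [e1]
    refine Finset.sum_congr rfl fun q _ => ?_
    simp only [ζ]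
    rw [PositiveLinearMap.gnsNonUnitalStarAlgHom_apply_coe]
    rfl
  have h2 := ((tensorRep f.gnsNonUnitalStarAlgHom σ w).le_opNorm
    (∑ q, ζ q ⊗ₜ[ℂ] EuclideanSpace.single q 1)).trans
      (mul_le_mul_of_nonneg_right (h f) (norm_nonneg _))
  have h3 := pow_le_pow_left₀ (norm_nonneg _) h2 2
  rwa [h1, mul_pow, norm_sum_tmul' he, norm_sum_tmul' he] at h3

end

end Vale.Agent.P133Z
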