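import Mathlib.Analysis.InnerProductSpace.TensorProduct
import Mathlib.Analysis.CStarAlgebra.ContinuousLinearMap
import Mathlib.Analysis.CStarAlgebra.Classes

/-!
The minimal tensor norm and exact C*-algebras (P133, question (b)).
-/

namespace Vale.Agent.P133Z

open scoped TensorProduct
open Filter Topology

universe u v

/-- Representations of `A` on the Hilbert space `H`. -/
abbrev Rep (A H : Type*) [NonUnitalCStarAlgebra A] [NormedAddCommGroup H]
    [InnerProductSpace ℂ H] [CompleteSpace H] : Type _ :=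
  A →⋆ₙₐ[ℂ] (H →L[ℂ] H)

/-- A representation `π` of `A` on a Hilbert space `H`, as a linear map from `A` to the linear
operators on `H`. -/
noncomputable def repLin {A H : Type*} [NonUnitalCStarAlgebra A] [NormedAddCommGroup H]
    [InnerProductSpace ℂ H] [CompleteSpace H] (π : Rep A H) : A →ₗ[ℂ] (H →ₗ[ℂ] H) :=
  ContinuousLinearMap.coeLM ℂ ∘ₗ (π : A →ₗ[ℂ] (H →L[ℂ] H))

/-- For linear maps `π` from `A` to the operators on `H` and `σ` from `B` to the operators on `K`,
the operator `(π ⊗ σ) x` on `H ⊗ K`: `a ⊗ b` acts as `π a ⊗ σ b`. -/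
noncomputable def tensorAct {A B H K : Type*} [AddCommGroup A] [Module ℂ A] [AddCommGroup B]
    [Module ℂ B] [AddCommGroup H] [Module ℂ H] [AddCommGroup K] [Module ℂ K]
    (π : A →ₗ[ℂ] (H →ₗ[ℂ] H)) (σ : B →ₗ[ℂ] (K →ₗ[ℂ] K)) (x : A ⊗[ℂ] B) (ξ : H ⊗[ℂ] K) :
    H ⊗[ℂ] K :=
  TensorProduct.homTensorHomMap (RingHom.id ℂ) H K H K (TensorProduct.map π σ x) ξ

/-- The operator `(π ⊗ σ) x` on the inner product space `H ⊗ K` has norm at most `c`. -/
def RepLE {A B H K : Type*} [NonUnitalCStarAlgebra A] [NonUnitalCStarAlgebra B]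
    [NormedAddCommGroup H] [InnerProductSpace ℂ H] [CompleteSpace H]
    [NormedAddCommGroup K] [InnerProductSpace ℂ K] [CompleteSpace K]
    (π : Rep A H) (σ : Rep B K) (x : A ⊗[ℂ] B) (c : ℝ) : Prop :=
  ∀ ξ : H ⊗[ℂ] K, ‖tensorAct (repLin π) (repLin σ) x ξ‖ ≤ c * ‖ξ‖

/-- For all representations `π` of `A` and `σ` of `B` on Hilbert spaces, `‖(π ⊗ σ) x‖ ≤ c`. -/
def MinLE {A : Type u} {B : Type v} [NonUnitalCStarAlgebra A] [NonUnitalCStarAlgebra B]
    (x : A ⊗[ℂ] B) (c : ℝ) : Prop :=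
  ∀ (H : Type u) [NormedAddCommGroup H] [InnerProductSpace ℂ H] [CompleteSpace H]
    (K : Type v) [NormedAddCommGroup K] [InnerProductSpace ℂ K] [CompleteSpace K]
    (π : Rep A H) (σ : Rep B K), RepLE π σ x c

/-- The minimal (spatial) C*-norm on the algebraic tensor product `A ⊗ B`: the supremum of
`‖(π ⊗ σ) x‖` over all representations `π` of `A` and `σ` of `B` on Hilbert spaces. -/
noncomputable def minNorm {A : Type u} {B : Type v} [NonUnitalCStarAlgebra A]
    [NonUnitalCStarAlgebra B] (x : A ⊗[ℂ] B) : ℝ :=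
  sInf {c : ℝ | 0 ≤ c ∧ MinLE x c}

/-- The sequence `x` is Cauchy for the minimal norm, so it defines an element of `A ⊗_min B`. -/
def MinCauchy {A : Type u} {B : Type v} [NonUnitalCStarAlgebra A] [NonUnitalCStarAlgebra B]
    (x : ℕ → A ⊗[ℂ] B) : Prop :=
  ∀ ε : ℝ, 0 < ε → ∃ N : ℕ, ∀ k l : ℕ, N ≤ k → N ≤ l → minNorm (x k - x l) < ε

/-- The sequence `x` tends to zero for the minimal norm. -/
def MinNull {A : Type u} {B : Type v} [NonUnitalCStarAlgebra A] [NonUnitalCStarAlgebra B]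
    (x : ℕ → A ⊗[ℂ] B) : Prop :=
  Tendsto (fun k => minNorm (x k)) atTop (𝓝 0)

/-- The map `id ⊗ q` on the algebraic tensor product. -/
noncomputable def idTensor (A : Type u) {B C : Type v} [NonUnitalCStarAlgebra A]
    [NonUnitalCStarAlgebra B] [NonUnitalCStarAlgebra C] (q : B →⋆ₙₐ[ℂ] C) (x : A ⊗[ℂ] B) :
    A ⊗[ℂ] C :=
  LinearMap.lTensor A (q : B →ₗ[ℂ] C) x

/-- The algebraic tensor product of `A` with the kernel of `q`. -/
def kerTensor (A : Type u) {B C : Type v} [NonUnitalCStarAlgebra A] [NonUnitalCStarAlgebra B]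
    [NonUnitalCStarAlgebra C] (q : B →⋆ₙₐ[ℂ] C) : Submodule ℂ (A ⊗[ℂ] B) :=
  Submodule.span ℂ {w : A ⊗[ℂ] B | ∃ a b, q b = 0 ∧ w = a ⊗ₜ[ℂ] b}

/-- For `q : B → C` with kernel `J`, the sequence `A ⊗_min J → A ⊗_min B → A ⊗_min C` is exact:
the kernel of `id ⊗ q` is contained in `A ⊗_min J` (the other inclusion is automatic).
An element of `A ⊗_min B` is the limit of a sequence `x` in the algebraic tensor product which is
Cauchy for the minimal norm. It lies in the kernel of `id ⊗ q` if `(id ⊗ q) (x k) → 0`, and in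
`A ⊗_min J` if it is the limit of a sequence `z` in the span of the `a ⊗ b`, `b ∈ J`. -/
def ExactAt (A : Type u) {B C : Type v} [NonUnitalCStarAlgebra A] [NonUnitalCStarAlgebra B]
    [NonUnitalCStarAlgebra C] (q : B →⋆ₙₐ[ℂ] C) : Prop :=
  ∀ x : ℕ → A ⊗[ℂ] B, MinCauchy x → MinNull (fun k => idTensor A q (x k)) →
    ∃ z : ℕ → A ⊗[ℂ] B, (∀ k, z k ∈ kerTensor A q) ∧ MinNull (fun k => x k - z k)

/-- `A` is exact: for every short exact sequence `0 → J → B → C → 0` of C*-algebras, given by a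
surjective *-homomorphism `q : B → C` with kernel `J`, the sequence
`0 → A ⊗_min J → A ⊗_min B → A ⊗_min C → 0` is exact (in the middle; the rest is automatic). -/
def IsExact (A : Type u) [NonUnitalCStarAlgebra A] : Prop :=
  ∀ (B C : Type) [NonUnitalCStarAlgebra B] [NonUnitalCStarAlgebra C] (q : B →⋆ₙₐ[ℂ] C),
    Function.Surjective q → ExactAt A q

end Vale.Agent.P133Z
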