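import Vale.Agent.P133Z.TSmall

/-!
P133 (helper93): exact C*-algebras have the property `Small`.
-/

namespace Vale.Agent.P133Z

open scoped TensorProduct InnerProductSpace ComplexOrder ENNReal
open Filter Topology Matrix Vale.Agent.P133.H832

universe u

/-- the upper bound in the quotient -/
theorem quot_bound {Λ : Type} {F : Filter Λ} {I : Λ → Type} [∀ l, Fintype (I l)]
    [∀ l, DecidableEq (I l)] {B C : Type} [NonUnitalCStarAlgebra B] [NonUnitalCStarAlgebra C]
    (q : B →⋆ₙₐ[ℂ] C)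
    (ev : ∀ l, B →⋆ₙₐ[ℂ] (EuclideanSpace ℂ (I l) →L[ℂ] EuclideanSpace ℂ (I l)))
    (hq : ∀ b, Tendsto (fun l => ‖ev l b‖) F (𝓝 0) → q b = 0)
    (hmk : ∀ (x : ∀ l, EuclideanSpace ℂ (I l) →L[ℂ] EuclideanSpace ℂ (I l)) (c : ℝ), 0 ≤ c →
      (∀ l, ‖x l‖ ≤ c) → ∃ b, ‖b‖ ≤ c ∧ ∀ l, ev l b = x l)
    {K : Type} [NormedAddCommGroup K] [InnerProductSpace ℂ K]
    [CompleteSpace K] (σ : C →⋆ₙₐ[ℂ] (K →L[ℂ] K)) {D : Type} [Fintype D] [DecidableEq D]
    {M : D → D → B} {T : ∀ l, I l × D → I l × D → ℂ}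
    (hM : ∀ l a b, ev l (M a b) = blk (T l) a b) {c : ℝ}
    (hc : 0 ≤ c) (hT : ∀ᶠ l in F, SF (T l) (c ^ 2)) (η : D → K) :
    ∑ a, ‖∑ b, σ (q (M a b)) (η b)‖ ^ 2 ≤ c ^ 2 * ∑ b, ‖η b‖ ^ 2 := by
  have h1 : ∀ l, ∃ L : D → D → (EuclideanSpace ℂ (I l) →L[ℂ] EuclideanSpace ℂ (I l)),
      (∀ s b, ‖L s b‖ ≤ c) ∧ (SF (T l) (c ^ 2) →
      ∀ b b', ∑ a, star (blk (T l) a b) * blk (T l) a b' + ∑ s, star (L s b) * L s b' =
        if b = b' then ((c ^ 2 : ℝ) : ℂ) • 1 else 0) := by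
    intro l
    by_cases h : SF (T l) (c ^ 2)
    · obtain ⟨L, h1, h2⟩ := exists_blk hc h
      exact ⟨L, h1, fun _ => h2⟩
    · exact ⟨0, fun _ _ => by simpa using hc, fun h' => absurd h' h⟩
  choose L hL1 hL2 using h1
  choose L' _ e1 using fun s b => hmk (fun l => L l s b) c hc fun l => hL1 l s b
  obtain ⟨one, hone, e2⟩ := hmk (fun _ => 1) 1 zero_le_one fun _ => ContinuousLinearMap.norm_id_le
  refine defect_bound (M := fun a b => σ (q (M a b))) (L := fun s b => σ (q (L' s b)))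
    (P := σ (q one)) (((NonUnitalStarAlgHom.norm_apply_le _ _).trans
      (NonUnitalStarAlgHom.norm_apply_le _ _)).trans hone) (by positivity) (fun b b' => ?_) η
  have h2 := hq (∑ a, star (M a b) * M a b' + ∑ s, star (L' s b) * L' s b' -
      (if b = b' then ((c ^ 2 : ℝ) : ℂ) • one else 0)) (tendsto_const_nhds.congr'
        (hT.mono fun l hl => by
    simp only [map_sub, map_add, map_sum, map_mul, map_star, hM, e1, hL2 l hl, apply_ite (ev l),
      map_smul, e2, map_zero, sub_self, norm_zero]))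
  have h3 := congrArg σ h2
  simpa only [map_sub, map_add, map_sum, map_mul, map_star, apply_ite q, apply_ite σ, map_smul,
    map_zero, sub_eq_zero] using h3

theorem exact_main {A : Type u} [NonUnitalCStarAlgebra A] [PartialOrder A] [StarOrderedRing A]
    (hA : IsExact A) {Λ : Type} (F : Filter Λ) [F.NeBot] {I : Λ → Type} [∀ l, Fintype (I l)]
    [∀ l, DecidableEq (I l)] {ι : Type} [Fintype ι] (y : ι → A) (m : ι → ∀ l, I l → I l → ℂ)
    {R : ℝ} (hR0 : 0 ≤ R) (hR : ∀ t l, Bd (m t l) (R ^ 2)) {c : ℝ} (hc : 0 ≤ c)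
    (h : ∀ (H : Type u) [NormedAddCommGroup H] [InnerProductSpace ℂ H] [CompleteSpace H]
      (π : A →⋆ₙₐ[ℂ] (H →L[ℂ] H)) (D : ℕ) (e : Fin D → H), Orthonormal ℂ e → ∀ᶠ l in F,
        SF (fun p q : I l × Fin D => ∑ t, ⟪e p.2, π (y t) (e q.2)⟫_ℂ * m t l p.1 q.1) (c ^ 2))
    {ε : ℝ} (hε : 0 < ε) : ∃ l, Bd (fun p q => ∑ t, m t l p q • y t) ((c + ε) ^ 2) := by
  obtain ⟨B, C, i0, i1, q, ev, hq, hk, hmk⟩ :=
    exists_prod (fun l => EuclideanSpace ℂ (I l) →L[ℂ] EuclideanSpace ℂ (I l)) F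
  choose b _ hb using fun t => hmk
    (fun l => toEuclideanCLM (n := I l) (𝕜 := ℂ) (Matrix.of (m t l))) R hR0
    fun l => norm_le_of_bd hR0 (hR t l)
  have h1 : minNorm (LinearMap.lTensor A (q : B →ₗ[ℂ] C) (∑ t, y t ⊗ₜ[ℂ] b t)) ≤ c := by
    refine minNorm_le hc fun H _ _ _ K _ _ _ π σ => ?_
    simp only [map_sum (LinearMap.lTensor A (q : B →ₗ[ℂ] C)), LinearMap.lTensor_tmul]
    refine upper π σ y _ hc fun D e he η => ?_
    have h2 := quot_bound q ev (fun b hb => (hk b).2 hb) hmk σ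
      (M := fun a a' => ∑ t, ⟪e a, π (y t) (e a')⟫_ℂ • b t) (fun l a a' => by
        simp only [map_sum, map_smul, hb, blk]
        simp only [← map_smul, ← map_sum]
        congr 1
        ext p p'
        simp only [Matrix.sum_apply, Matrix.smul_apply, Matrix.of_apply, smul_eq_mul]) hc (h H π D e he) η
    simp only [map_sum, map_smul, _root_.sum_apply, _root_.smul_apply] at h2
    exact h2
  obtain ⟨z, hz, hzl⟩ := hA.dist_le q hq _ h1 (half_pos hε)
  have h2 : ∀ δ > 0, ∀ᶠ l in F, ∀ f : A →ₚ[ℂ] ℂ,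
      ‖tensorRep f.gnsNonUnitalStarAlgHom (ev l) z‖ ≤ δ := by
    clear hzl
    induction hz using Submodule.span_induction with
    | mem w hw =>
      obtain ⟨a, b', hb', rfl⟩ := hw
      intro δ hδ
      have e1 : Tendsto (fun l => ‖a‖ * ‖ev l b'‖) F (𝓝 0) := by
        simpa using Tendsto.const_mul ‖a‖ ((hk b').1 hb')
      filter_upwards [e1.eventually (gt_mem_nhds hδ)] with l hl f
      exact (norm_tensorRep_tmul _ _ _ _).trans hl.le
    | zero =>
      refine fun δ hδ => Eventually.of_forall fun l f => ?_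
      rw [map_zero, ContinuousLinearMap.opNorm_zero]
      exact hδ.le
    | add w w' _ _ ih ih' =>
      intro δ hδ
      filter_upwards [ih _ (half_pos hδ), ih' _ (half_pos hδ)] with l hl hl' f
      rw [map_add]
      exact (ContinuousLinearMap.opNorm_add_le _ _).trans (by linarith [hl f, hl' f])
    | smul s w _ ih =>
      intro δ hδ
      filter_upwards [ih (δ / (‖s‖ + 1)) (by positivity)] with l hl f
      rw [map_smul]
      refine (ContinuousLinearMap.opNorm_smul_le _ _).trans ?_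
      calc _ ≤ (‖s‖ + 1) * (δ / (‖s‖ + 1)) :=
            mul_le_mul (by linarith) (hl f) (ContinuousLinearMap.opNorm_nonneg _) (by positivity)
        _ = δ := by field_simp
  obtain ⟨l, hl⟩ := (h2 _ (half_pos hε)).exists
  refine ⟨l, ?_⟩
  have h3 := lower (ev l) (∑ t, y t ⊗ₜ[ℂ] b t) (c := c + ε) fun f => by
    rw [← sub_add_cancel (∑ t, y t ⊗ₜ[ℂ] b t) z, map_add]
    exact (ContinuousLinearMap.opNorm_add_le _ _).trans
      (by linarith [hl f, hzl _ _ f.gnsNonUnitalStarAlgHom (ev l)])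
  convert h3 using 3 with p p'
  simp only [map_sum, slice_tmul]
  refine Finset.sum_congr rfl fun t _ => ?_
  congr 1
  show _ = ev l (b t) (EuclideanSpace.single p' 1) p
  rw [hb]
  show _ = (Matrix.of (m t l) *ᵥ (Pi.single p' 1)) p
  simp

/-- bounded hermitian tuples of matrices -/
def Tup (n r : ℕ) (M : ℝ) : Type :=
  Σ D : ℕ, {Y : Fin r → Matrix (Fin n × Fin D) (Fin n × Fin D) ℂ //
    (∀ i, star (Y i) = Y i) ∧ ∀ i, Bd (fun a b => Y i a b) (M ^ 2)}

theorem small_of_exact {A : Type u} [NonUnitalCStarAlgebra A] [PartialOrder A] [StarOrderedRing A]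
    (hA : IsExact A) : Small A := by
  classical
  intro n r hr y M hM hys hy
  have hr1 : (1 : ℝ) ≤ r := by exact_mod_cast hr
  obtain ⟨N, hN⟩ : ∃ N : ℝ, N = (n + 1) * M := ⟨_, rfl⟩
  have hN0 : 0 < N := by rw [hN]; positivity
  have h0 := fun l : Finset (Tup n r N) => scalar_multi hr (S := l)
    (D := fun s => Fin n × Fin s.1.1) (Y := fun s => s.1.2.1) (fun s => s.1.2.2.1) hN0
    fun s => s.1.2.2.2
  choose H i1 i2 i3 τ f h1 h2 h3 h4 using h0
  let E : Fin n → Fin n → Fin n → Fin n → ℂ := fun j j' k k' => if k = j ∧ k' = j' then 1 else 0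
  have hc : (0 : ℝ) ≤ 8 * r * N ^ 2 := by positivity
  obtain ⟨l, hl⟩ := exact_main hA (atTop : Filter (Finset (Tup n r N)))
    (I := fun l => H l × Fin n) (fun t : Fin r × Fin n × Fin n => y t.1 t.2.1 t.2.2)
    (fun t l p q => f l p.1 (τ l t.1 q.1) • E t.2.1 t.2.2 p.2 q.2) (Nat.cast_nonneg n)
    (fun t l => (Bd.tensor (b := fun p q => f l p (τ l t.1 q)) (E := E t.2.1 t.2.2)
      ((h2 l).perm (h1 l t.1).injective) (Bd.of_entries (ε := 1) fun k k' => by
        simp only [E]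
        split_ifs <;> simp)).mono (by simp [sq]))
    (Real.sqrt_nonneg (8 * r * N ^ 2)) (fun K _ _ _ π D e he => by
      let s : Tup n r N := ⟨D, fun i => Matrix.of fun p q => ⟪e p.2, π (y i p.1 q.1) (e q.2)⟫_ℂ,
        fun i => by
          ext p q
          simp only [Matrix.star_apply, Matrix.of_apply]
          rw [← hys i q.1 p.1, map_star, ContinuousLinearMap.star_eq_adjoint,
            ContinuousLinearMap.adjoint_inner_right]
          exact inner_conj_symm _ _,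
        fun i => by
          have e1 := Bd.blocks (X := fun j j' a b => ⟪e a, π (y i j j') (e b)⟫_ℂ) fun j j' =>
            bd_inner he _ ((NonUnitalStarAlgHom.norm_apply_le π _).trans (hy i j j'))
          refine e1.mono ?_
          rw [Fintype.card_fin, hN, mul_pow]
          gcongr
          linarith⟩
      filter_upwards [eventually_ge_atTop ({s} : Finset (Tup n r N))] with l hl
      have e2 := (h4 l ⟨s, hl (Finset.mem_singleton_self s)⟩).reindex
        (Equiv.prodAssoc (H l) (Fin n) (Fin D)) (Equiv.prodAssoc (H l) (Fin n) (Fin D))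
      rw [Real.sq_sqrt hc]
      convert e2 using 3 with p q
      simp [E, s, Fintype.sum_prod_type, ite_and, mul_comm]) hN0
  refine ⟨H l, i1 l, i2 l, i3 l, τ l, f l, h1 l, h2 l, h3 l, Bd.mono ?_ (C :=
    (√(8 * r * N ^ 2) + N) ^ 2) ?_⟩
  · convert hl using 3 with p q
    simp [E, Fintype.sum_prod_type, ite_and]
  · rw [← hN]
    have e1 := Real.sq_sqrt hc
    have e2 : N ^ 2 ≤ r * N ^ 2 := le_mul_of_one_le_left (by positivity) hr1
    nlinarith [sq_nonneg (√(8 * r * N ^ 2) - N)]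

end Vale.Agent.P133Z
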