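import Vale.Agent.P133Z.TDefs
import Mathlib.Analysis.InnerProductSpace.Completion
import Mathlib.Topology.Algebra.LinearMapCompletion
import Mathlib.RingTheory.TensorProduct.Basic
import Mathlib.Analysis.CStarAlgebra.ContinuousFunctionalCalculus.Order
import Mathlib.Topology.ContinuousMap.Weierstrass
import Mathlib.Analysis.CStarAlgebra.Hom
import Mathlib.Analysis.InnerProductSpace.PiL2

/-!
P133 (helper93): the quotient norm in exact C*-algebras.
-/

namespace Vale.Agent.P133Z

open scoped TensorProduct InnerProductSpace Polynomial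
open Filter Topology UniformSpace

universe u v

section

variable {A B H K : Type*} [NonUnitalCStarAlgebra A] [NonUnitalCStarAlgebra B]
  [NormedAddCommGroup H] [InnerProductSpace ℂ H] [CompleteSpace H]
  [NormedAddCommGroup K] [InnerProductSpace ℂ K] [CompleteSpace K]
  (π : A →⋆ₙₐ[ℂ] (H →L[ℂ] H)) (σ : B →⋆ₙₐ[ℂ] (K →L[ℂ] K))

/-- the tensor product of two representations -/
noncomputable def tensorRep : A ⊗[ℂ] B →ₗ[ℂ] (H ⊗[ℂ] K →L[ℂ] H ⊗[ℂ] K) :=
  TensorProduct.lift (LinearMap.mk₂ ℂ (fun a b => TensorProduct.mapL (π a) (σ b))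
    (fun a a' b => by rw [map_add, TensorProduct.mapL_add_left])
    (fun c a b => by rw [map_smul, TensorProduct.mapL_smul_left])
    (fun a b b' => by rw [map_add, TensorProduct.mapL_add_right])
    (fun c a b => by rw [map_smul, TensorProduct.mapL_smul_right]))

theorem tensorRep_tmul (a : A) (b : B) :
    tensorRep π σ (a ⊗ₜ[ℂ] b) = TensorProduct.mapL (π a) (σ b) := rfl

theorem tensorAct_eq (x : A ⊗[ℂ] B) (ξ : H ⊗[ℂ] K) :
    tensorAct (repLin π) (repLin σ) x ξ = tensorRep π σ x ξ := by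
  induction x using TensorProduct.induction_on with
  | zero => simp only [tensorAct, map_zero, zero_apply, LinearMap.zero_apply]
  | add x x' h h' =>
    simp only [tensorAct] at h h' ⊢
    simp only [map_add, add_apply, LinearMap.add_apply, h, h']
  | tmul a b =>
    rw [tensorRep_tmul, TensorProduct.mapL_apply]
    rfl

theorem norm_tensorRep_tmul (a : A) (b : B) : ‖tensorRep π σ (a ⊗ₜ[ℂ] b)‖ ≤ ‖a‖ * ‖σ b‖ :=
  (TensorProduct.norm_mapL_le _ _).trans
    (mul_le_mul_of_nonneg_right (NonUnitalStarAlgHom.norm_apply_le π a) (norm_nonneg _))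

theorem tensorRep_mul (x y : A ⊗[ℂ] B) :
    tensorRep π σ (x * y) = tensorRep π σ x * tensorRep π σ y := by
  induction x using TensorProduct.induction_on with
  | zero => rw [zero_mul, map_zero, zero_mul]
  | add x x' h h' => rw [add_mul, map_add, map_add, add_mul, h, h']
  | tmul a b =>
    induction y using TensorProduct.induction_on with
    | zero => rw [mul_zero, map_zero, mul_zero]
    | add y y' h h' => rw [mul_add, map_add, map_add, mul_add, h, h']
    | tmul a' b' =>
      rw [Algebra.TensorProduct.tmul_mul_tmul, tensorRep_tmul, tensorRep_tmul, tensorRep_tmul,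
        map_mul, map_mul, TensorProduct.mapL_mul]

theorem tensorRep_star (x : A ⊗[ℂ] B) (ξ η : H ⊗[ℂ] K) :
    ⟪tensorRep π σ (star x) ξ, η⟫_ℂ = ⟪ξ, tensorRep π σ x η⟫_ℂ := by
  induction x using TensorProduct.induction_on with
  | zero => simp only [star_zero, map_zero, zero_apply, inner_zero_left,
      inner_zero_right]
  | add x x' h h' => simp only [star_add, map_add, add_apply, inner_add_left,
      inner_add_right, h, h']
  | tmul a b =>
    rw [TensorProduct.star_tmul, tensorRep_tmul, tensorRep_tmul]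
    induction ξ using TensorProduct.induction_on with
    | zero => simp only [map_zero, inner_zero_left]
    | add x x' h h' => simp only [map_add, inner_add_left, h, h']
    | tmul u v =>
      induction η using TensorProduct.induction_on with
      | zero => simp only [map_zero, inner_zero_right]
      | add x x' h h' => simp only [map_add, inner_add_right, h, h']
      | tmul u' v' =>
        simp only [TensorProduct.mapL_tmul, TensorProduct.inner_tmul, map_star,
          ContinuousLinearMap.star_eq_adjoint, ContinuousLinearMap.adjoint_inner_left]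

theorem tensorRep_lTensor {C : Type*} [NonUnitalCStarAlgebra C] (q : C →⋆ₙₐ[ℂ] B)
    (x : A ⊗[ℂ] C) :
    tensorRep π σ (LinearMap.lTensor A (q : C →ₗ[ℂ] B) x) = tensorRep π (σ.comp q) x := by
  induction x using TensorProduct.induction_on with
  | zero => simp only [map_zero]
  | add x x' h h' => simp only [map_add, h, h']
  | tmul a b => rfl

end

section

variable {E : Type*} [NormedAddCommGroup E] [InnerProductSpace ℂ E]

theorem compl_ext {S T : Completion E →L[ℂ] Completion E} (h : ∀ a : E, S a = T a) : S = T := by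
  ext a
  induction a using Completion.induction_on with
  | hp => exact isClosed_eq S.continuous T.continuous
  | ih a => exact h a

theorem norm_compl (T : E →L[ℂ] E) : ‖T.completion‖ = ‖T‖ := by
  refine le_antisymm (ContinuousLinearMap.opNorm_le_bound _ (norm_nonneg _) fun a => ?_)
    (ContinuousLinearMap.opNorm_le_bound _ (norm_nonneg _) fun a => ?_)
  · induction a using Completion.induction_on with
    | hp => exact isClosed_le (by fun_prop) (by fun_prop)
    | ih a =>
      rw [ContinuousLinearMap.completion_apply_coe, Completion.norm_coe, Completion.norm_coe]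
      exact T.le_opNorm a
  · have h := T.completion.le_opNorm a
    rwa [ContinuousLinearMap.completion_apply_coe, Completion.norm_coe, Completion.norm_coe] at h

/-- extension of operators to the completion -/
noncomputable def complL : (E →L[ℂ] E) →ₗ[ℂ] (Completion E →L[ℂ] Completion E) where
  toFun T := T.completion
  map_add' S T := compl_ext fun a => by
    simp only [ContinuousLinearMap.completion_apply_coe, add_apply,
      Completion.coe_add]
  map_smul' c T := compl_ext fun a => by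
    simp only [ContinuousLinearMap.completion_apply_coe, smul_apply,
      Completion.coe_smul, RingHom.id_apply]

theorem norm_complL (T : E →L[ℂ] E) : ‖complL T‖ = ‖T‖ := norm_compl T

theorem complL_coe (T : E →L[ℂ] E) (a : E) : complL T a = (T a : E) :=
  ContinuousLinearMap.completion_apply_coe T a

theorem complL_mul (S T : E →L[ℂ] E) : complL (S * T) = complL S * complL T :=
  compl_ext fun a => by simp only [complL_coe, mul_apply_eq_comp]

theorem complL_star {S T : E →L[ℂ] E} (h : ∀ a b, ⟪S a, b⟫_ℂ = ⟪a, T b⟫_ℂ) :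
    complL S = star (complL T) := by
  rw [ContinuousLinearMap.star_eq_adjoint, ContinuousLinearMap.eq_adjoint_iff]
  intro a b
  induction a, b using Completion.induction_on₂ with
  | hp => exact isClosed_eq (by fun_prop) (by fun_prop)
  | ih a b => simp only [complL_coe, Completion.inner_coe, h]

end

theorem norm_mul_aeval_le {M : Type*} [CStarAlgebra M] {T : M} {R δ : ℝ} (hT : ‖T‖ ≤ R)
    (hδ : 0 ≤ δ) (p : ℝ[X]) (h : ∀ s, 0 ≤ s → s ≤ R → s * |p.eval (s ^ 2)| ≤ δ) :
    ‖T * Polynomial.aeval (star T * T) p‖ ≤ δ := by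
  let _ := CStarAlgebra.spectralOrder M
  have _ := CStarAlgebra.spectralOrderedRing M
  set w := star T * T with hw
  have hw0 : 0 ≤ w := star_mul_self_nonneg T
  have hws : IsSelfAdjoint w := IsSelfAdjoint.of_nonneg hw0
  have h1 : Polynomial.aeval w p = cfc (fun t : ℝ => p.eval t) w := (cfc_polynomial p w).symm
  have h2 : star (T * Polynomial.aeval w p) * (T * Polynomial.aeval w p) =
      cfc (fun t : ℝ => p.eval t * t * p.eval t) w := by
    rw [cfc_mul _ _ w, cfc_mul _ _ w, cfc_id' ℝ w, star_mul, h1,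
      (cfc_predicate (p := IsSelfAdjoint) _ w).star_eq]
    simp only [hw, mul_assoc]
  have h3 : ‖cfc (fun t : ℝ => p.eval t * t * p.eval t) w‖ ≤ δ ^ 2 := by
    refine norm_cfc_le (by positivity) fun t ht => ?_
    have t0 : 0 ≤ t := spectrum_nonneg_of_nonneg hw0 ht
    have t1 : t ≤ R ^ 2 := by
      have k1 : ‖t‖ ≤ ‖w‖ := by
        have := norm_apply_le_norm_cfc (fun t : ℝ => t) w ht
        rwa [cfc_id' ℝ w] at this
      rw [Real.norm_of_nonneg t0, hw, CStarRing.norm_star_mul_self, ← sq] at k1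
      exact k1.trans (pow_le_pow_left₀ (norm_nonneg _) hT 2)
    have k2 := h (√t) (Real.sqrt_nonneg t)
      (Real.sqrt_le_iff.2 ⟨(norm_nonneg _).trans hT, t1⟩)
    rw [Real.sq_sqrt t0] at k2
    have k3 := pow_le_pow_left₀ (by positivity) k2 2
    rw [mul_pow, Real.sq_sqrt t0, sq_abs] at k3
    rw [Real.norm_of_nonneg (by nlinarith [sq_nonneg (p.eval t)])]
    linarith
  rw [← h2, CStarRing.norm_star_mul_self, ← sq] at h3
  exact le_of_pow_le_pow_left₀ two_ne_zero hδ h3

theorem norm_sub_le_of_compl {E : Type*} [NormedAddCommGroup E] [InnerProductSpace ℂ E]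
    {S S' T : E →L[ℂ] E} {R δ : ℝ} (hT : ‖T‖ ≤ R) (hδ : 0 ≤ δ) (p p' : ℝ[X])
    (h : ∀ s, 0 ≤ s → s ≤ R → s * |p.eval (s ^ 2) - p'.eval (s ^ 2)| ≤ δ)
    (hS : complL S = complL T * Polynomial.aeval (star (complL T) * complL T) p)
    (hS' : complL S' = complL T * Polynomial.aeval (star (complL T) * complL T) p') :
    ‖S - S'‖ ≤ δ := by
  rw [← norm_complL] at hT ⊢
  rw [LinearMap.map_sub, hS, hS', ← mul_sub, ← map_sub]
  exact norm_mul_aeval_le hT hδ _ fun s h0 h1 => by rw [Polynomial.eval_sub]; exact h s h0 h1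

section

variable {A : Type u} {B : Type v} [NonUnitalCStarAlgebra A] [NonUnitalCStarAlgebra B]

theorem exists_bound (x : A ⊗[ℂ] B) : ∃ c : ℝ, ∀ (H : Type u) [NormedAddCommGroup H]
    [InnerProductSpace ℂ H] [CompleteSpace H] (K : Type v) [NormedAddCommGroup K]
    [InnerProductSpace ℂ K] [CompleteSpace K] (π : A →⋆ₙₐ[ℂ] (H →L[ℂ] H))
    (σ : B →⋆ₙₐ[ℂ] (K →L[ℂ] K)), ‖tensorRep π σ x‖ ≤ c := by
  induction x using TensorProduct.induction_on with
  | zero => exact ⟨0, fun H _ _ _ K _ _ _ π σ => by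
      rw [map_zero, ContinuousLinearMap.opNorm_zero]⟩
  | add x x' h h' =>
    obtain ⟨c, hc⟩ := h
    obtain ⟨c', hc'⟩ := h'
    exact ⟨c + c', fun H _ _ _ K _ _ _ π σ => by
      rw [map_add]
      exact (ContinuousLinearMap.opNorm_add_le _ _).trans
        (add_le_add (hc H K π σ) (hc' H K π σ))⟩
  | tmul a b =>
    exact ⟨‖a‖ * ‖b‖, fun H _ _ _ K _ _ _ π σ => (norm_tensorRep_tmul π σ a b).trans
      (mul_le_mul_of_nonneg_left (NonUnitalStarAlgHom.norm_apply_le σ b) (norm_nonneg _))⟩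

theorem minLE_of {x : A ⊗[ℂ] B} {c : ℝ} (h : ∀ (H : Type u) [NormedAddCommGroup H]
    [InnerProductSpace ℂ H] [CompleteSpace H] (K : Type v) [NormedAddCommGroup K]
    [InnerProductSpace ℂ K] [CompleteSpace K] (π : A →⋆ₙₐ[ℂ] (H →L[ℂ] H))
    (σ : B →⋆ₙₐ[ℂ] (K →L[ℂ] K)), ‖tensorRep π σ x‖ ≤ c) : MinLE x c := by
  intro H _ _ _ K _ _ _ π σ ξ
  rw [tensorAct_eq]
  exact ((tensorRep π σ x).le_opNorm ξ).trans
    (mul_le_mul_of_nonneg_right (h H K π σ) (norm_nonneg _))

theorem le_minNorm {H : Type u} [NormedAddCommGroup H]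
    [InnerProductSpace ℂ H] [CompleteSpace H] {K : Type v} [NormedAddCommGroup K]
    [InnerProductSpace ℂ K] [CompleteSpace K] (π : A →⋆ₙₐ[ℂ] (H →L[ℂ] H))
    (σ : B →⋆ₙₐ[ℂ] (K →L[ℂ] K)) (x : A ⊗[ℂ] B) : ‖tensorRep π σ x‖ ≤ minNorm x := by
  obtain ⟨c, hc⟩ := exists_bound x
  refine le_csInf ⟨c, (ContinuousLinearMap.opNorm_nonneg _).trans (hc H K π σ), minLE_of hc⟩ ?_
  rintro d ⟨h0, hd⟩
  refine ContinuousLinearMap.opNorm_le_bound _ h0 fun ξ => ?_
  rw [← tensorAct_eq]
  exact hd H K π σ ξ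

theorem minNorm_le {x : A ⊗[ℂ] B} {c : ℝ} (hc : 0 ≤ c) (h : ∀ (H : Type u) [NormedAddCommGroup H]
    [InnerProductSpace ℂ H] [CompleteSpace H] (K : Type v) [NormedAddCommGroup K]
    [InnerProductSpace ℂ K] [CompleteSpace K] (π : A →⋆ₙₐ[ℂ] (H →L[ℂ] H))
    (σ : B →⋆ₙₐ[ℂ] (K →L[ℂ] K)), ‖tensorRep π σ x‖ ≤ c) : minNorm x ≤ c :=
  csInf_le ⟨0, fun _ hd => hd.1⟩ ⟨hc, minLE_of h⟩

theorem minNorm_nonneg (x : A ⊗[ℂ] B) : 0 ≤ minNorm x :=
  Real.sInf_nonneg fun _ hd => hd.1

/-- the elements `x (x* x)^k` -/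
noncomputable def pw (x : A ⊗[ℂ] B) : ℕ → A ⊗[ℂ] B
  | 0 => x
  | k + 1 => pw x k * (star x * x)

/-- the element `x p(x* x)` -/
noncomputable def ev (p : ℝ[X]) (x : A ⊗[ℂ] B) : A ⊗[ℂ] B :=
  ∑ k ∈ Finset.range (p.natDegree + 1), (p.coeff k : ℂ) • pw x k

end

section

variable {A B H K : Type*} [NonUnitalCStarAlgebra A] [NonUnitalCStarAlgebra B]
  [NormedAddCommGroup H] [InnerProductSpace ℂ H] [CompleteSpace H]
  [NormedAddCommGroup K] [InnerProductSpace ℂ K] [CompleteSpace K]
  (π : A →⋆ₙₐ[ℂ] (H →L[ℂ] H)) (σ : B →⋆ₙₐ[ℂ] (K →L[ℂ] K))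

theorem compl_pw (x : A ⊗[ℂ] B) (k : ℕ) : complL (tensorRep π σ (pw x k)) =
    complL (tensorRep π σ x) *
      (star (complL (tensorRep π σ x)) * complL (tensorRep π σ x)) ^ k := by
  induction k with
  | zero => rw [pow_zero, mul_one, pw]
  | succ k ih =>
    rw [pw, tensorRep_mul, tensorRep_mul, complL_mul, complL_mul, ih,
      complL_star (tensorRep_star π σ x), pow_succ, mul_assoc]

theorem compl_ev (p : ℝ[X]) (x : A ⊗[ℂ] B) : complL (tensorRep π σ (ev p x)) =
    complL (tensorRep π σ x) *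
      Polynomial.aeval (star (complL (tensorRep π σ x)) * complL (tensorRep π σ x)) p := by
  rw [Polynomial.aeval_eq_sum_range, ev, map_sum, map_sum, Finset.mul_sum]
  refine Finset.sum_congr rfl fun k _ => ?_
  rw [map_smul, map_smul, compl_pw, Complex.coe_smul, mul_smul_comm]

theorem norm_ev_sub_le {x : A ⊗[ℂ] B} {R δ : ℝ} (hR : ‖tensorRep π σ x‖ ≤ R) (hδ : 0 ≤ δ)
    (p p' : ℝ[X]) (h : ∀ s, 0 ≤ s → s ≤ R → s * |p.eval (s ^ 2) - p'.eval (s ^ 2)| ≤ δ) :
    ‖tensorRep π σ (ev p x - ev p' x)‖ ≤ δ := by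
  rw [LinearMap.map_sub]
  exact norm_sub_le_of_compl hR hδ p p' h (compl_ev π σ p x) (compl_ev π σ p' x)

end

theorem ev_zero {A : Type u} {B : Type v} [NonUnitalCStarAlgebra A] [NonUnitalCStarAlgebra B]
    (x : A ⊗[ℂ] B) : ev 0 x = 0 := by simp [ev]

theorem ev_one {A : Type u} {B : Type v} [NonUnitalCStarAlgebra A] [NonUnitalCStarAlgebra B]
    (x : A ⊗[ℂ] B) : ev 1 x = x := by
  simp only [ev, Polynomial.natDegree_one, zero_add, Finset.range_one, Finset.sum_singleton,
    Polynomial.coeff_one_zero, Complex.ofReal_one, pw]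
  exact one_smul ℂ x

/-- In an exact C*-algebra the distance from the algebraic tensor product with the kernel is the
minimal norm in the quotient. -/
theorem IsExact.dist_le {A : Type u} [NonUnitalCStarAlgebra A] (hA : IsExact A) {B C : Type}
    [NonUnitalCStarAlgebra B] [NonUnitalCStarAlgebra C] (q : B →⋆ₙₐ[ℂ] C)
    (hq : Function.Surjective q) (x : A ⊗[ℂ] B) {c ε : ℝ}
    (hc : minNorm (LinearMap.lTensor A (q : B →ₗ[ℂ] C) x) ≤ c) (hε : 0 < ε) :
    ∃ z ∈ Submodule.span ℂ {w : A ⊗[ℂ] B | ∃ a b, q b = 0 ∧ w = a ⊗ₜ[ℂ] b},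
      ∀ (H : Type u) [NormedAddCommGroup H] [InnerProductSpace ℂ H] [CompleteSpace H] (K : Type)
        [NormedAddCommGroup K] [InnerProductSpace ℂ K] [CompleteSpace K]
        (π : A →⋆ₙₐ[ℂ] (H →L[ℂ] H)) (σ : B →⋆ₙₐ[ℂ] (K →L[ℂ] K)),
        ‖tensorRep π σ (x - z)‖ ≤ c + ε := by
  have hc0 : 0 ≤ c := (minNorm_nonneg _).trans hc
  obtain ⟨d, hd⟩ : ∃ d, d = c + ε / 3 := ⟨_, rfl⟩
  have hd0 : 0 < d := by rw [hd]; positivity
  obtain ⟨R, hR⟩ : ∃ R, R = minNorm x + d := ⟨_, rfl⟩
  have hRx : minNorm x ≤ R := by linarith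
  have hRd : d ≤ R := by linarith [minNorm_nonneg x]
  have hR0 : 0 < R := hd0.trans_le hRd
  let h : ℝ → ℝ := fun t => 1 - d / max (√t) d
  have hm : ∀ t, 0 < max (√t) d := fun t => lt_max_of_lt_right hd0
  have hh : Continuous h :=
    continuous_const.sub (continuous_const.div (by fun_prop) fun t => (hm t).ne')
  have hp : ∀ k : ℕ, ∃ p : ℝ[X], ∀ s, 0 ≤ s → s ≤ R →
      s * |p.eval (s ^ 2) - h (s ^ 2)| ≤ 1 / ((k : ℝ) + 1) := by
    intro k
    obtain ⟨p, hp⟩ := exists_polynomial_near_of_continuousOn 0 (R ^ 2) h hh.continuousOn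
      (1 / ((k : ℝ) + 1) / R) (by positivity)
    refine ⟨p, fun s h0 h1 => ?_⟩
    have k1 := (hp (s ^ 2) ⟨by positivity, pow_le_pow_left₀ h0 h1 2⟩).le
    calc _ ≤ R * (1 / ((k : ℝ) + 1) / R) := mul_le_mul h1 k1 (abs_nonneg _) hR0.le
      _ = _ := by field_simp
  choose p hp using hp
  have hlim := tendsto_one_div_add_atTop_nhds_zero_nat (𝕜 := ℝ)
  have hcau : MinCauchy fun k => ev (p k) x := by
    intro η hη
    obtain ⟨N, hN⟩ := eventually_atTop.1
      (hlim.eventually (gt_mem_nhds (by positivity : (0 : ℝ) < η / 3)))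
    refine ⟨N, fun k l hk hl => lt_of_le_of_lt (minNorm_le (c := 2 * η / 3) (by positivity)
      fun H _ _ _ K _ _ _ π σ => ?_) (by linarith)⟩
    refine norm_ev_sub_le π σ ((le_minNorm π σ x).trans hRx) (by positivity) _ _
      fun s h0 h1 => ?_
    have k1 := hp k s h0 h1
    have k2 := hp l s h0 h1
    have k4 := abs_sub_le ((p k).eval (s ^ 2)) (h (s ^ 2)) ((p l).eval (s ^ 2))
    rw [abs_sub_comm (h (s ^ 2))] at k4
    have k5 := mul_le_mul_of_nonneg_left k4 h0
    have k6 := hN k hk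
    have k7 := hN l hl
    linarith
  have hnull : Tendsto (fun k => minNorm (LinearMap.lTensor A (q : B →ₗ[ℂ] C) (ev (p k) x)))
      atTop (𝓝 0) := by
    refine squeeze_zero (fun k => minNorm_nonneg _) (fun k => ?_) hlim
    refine minNorm_le (by positivity) fun H _ _ _ K _ _ _ π σ => ?_
    have k1 := (le_minNorm π σ _).trans hc
    rw [tensorRep_lTensor] at k1 ⊢
    have k2 := norm_ev_sub_le π (σ.comp q) k1 (δ := 1 / ((k : ℝ) + 1)) (by positivity) (p k) 0
      fun s h0 h1 => by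
        have k3 : s ≤ d := by linarith
        have k4 := hp k s h0 (k3.trans hRd)
        simp only [h, Real.sqrt_sq h0, max_eq_right k3, div_self hd0.ne', sub_self] at k4
        rwa [Polynomial.eval_zero]
    rwa [ev_zero, sub_zero] at k2
  obtain ⟨z, hz, hzl⟩ := hA B C q hq (fun k => ev (p k) x) hcau hnull
  obtain ⟨k, hk1, hk2⟩ := ((hzl.eventually (gt_mem_nhds (by positivity : (0 : ℝ) < ε / 3))).and
    (hlim.eventually (gt_mem_nhds (by positivity : (0 : ℝ) < ε / 3)))).exists
  refine ⟨z k, hz k, fun H _ _ _ K _ _ _ π σ => ?_⟩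
  have k1 : ‖tensorRep π σ (ev 1 x - ev (p k) x)‖ ≤ d + ε / 3 := by
    refine norm_ev_sub_le π σ ((le_minNorm π σ x).trans hRx) (by positivity) _ _
      fun s h0 h1 => ?_
    have k2 : s * |1 - h (s ^ 2)| ≤ d := by
      simp only [h, Real.sqrt_sq h0, sub_sub_cancel]
      have k3 : 0 < max s d := lt_max_of_lt_right hd0
      rw [abs_of_nonneg (by positivity), ← mul_div_assoc, div_le_iff₀ k3, mul_comm]
      exact mul_le_mul_of_nonneg_left (le_max_left _ _) hd0.le
    have k3 := hp k s h0 h1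
    have k4 := abs_sub_le 1 (h (s ^ 2)) ((p k).eval (s ^ 2))
    rw [abs_sub_comm (h (s ^ 2))] at k4
    have k5 := mul_le_mul_of_nonneg_left k4 h0
    rw [Polynomial.eval_one]
    linarith
  rw [ev_one] at k1
  have k2 := le_minNorm π σ (ev (p k) x - z k)
  have k3 : x - z k = (x - ev (p k) x) + (ev (p k) x - z k) := by abel
  rw [k3, map_add]
  refine (ContinuousLinearMap.opNorm_add_le _ _).trans ?_
  linarith

end Vale.Agent.P133Z
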