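import Vale.Agent.P133Z.TBasic
import Vale.Agent.P133Z.Exact
import Vale.Agent.P133.H832.Tame1
import Mathlib.Analysis.CStarAlgebra.lpSpace

/-!
P133 (helper93): exact C*-algebras have the property `Small`.
-/

namespace Vale.Agent.P133Z

open scoped TensorProduct InnerProductSpace ComplexOrder ENNReal
open Filter Topology Matrix Vale.Agent.P133.H832

universe u

theorem Bd.sub {B : Type*} [NonUnitalCStarAlgebra B] [PartialOrder B] [StarOrderedRing B]
    {ι κ ι' κ' : Type*} [Fintype ι] [Fintype κ] [Fintype ι'] [Fintype κ'] {X : ι → κ → B} {C : ℝ}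
    (h : Bd X C) {e : ι' → ι} (he : Function.Injective e) {e' : κ' → κ}
    (he' : Function.Injective e') : Bd (fun p q => X (e p) (e' q)) C := by
  classical
  intro z
  let w : κ → B := Function.extend e' z 0
  have hw : ∀ q, w (e' q) = z q := fun q => he'.extend_apply _ _ _
  have hw0 : ∀ q, q ∉ Set.range e' → w q = 0 := fun q hq => Function.extend_apply' _ _ _ hq
  have h1 : ∀ p, ∑ q, X p (e' q) * z q = ∑ q, X p q * w q := fun p =>
    Fintype.sum_of_injective e' he' _ _ (fun q hq => by rw [hw0 q hq, mul_zero])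
      fun q => by rw [hw]
  have h2 : col z = col w :=
    Fintype.sum_of_injective e' he' _ _ (fun q hq => by rw [hw0 q hq, mul_zero])
      fun q => by rw [hw]
  rw [h2]
  refine le_trans ?_ (h w)
  simp only [h1, col]
  rw [← Finset.sum_image (s := Finset.univ) (g := e)
    (f := fun p => star (∑ q, X p q * w q) * ∑ q, X p q * w q) he.injOn]
  exact Finset.sum_le_sum_of_subset_of_nonneg (Finset.subset_univ _)
    fun _ _ _ => star_mul_self_nonneg _

theorem norm_le_of_bd {D : Type} [Fintype D] [DecidableEq D] {Y : Matrix D D ℂ} {M : ℝ}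
    (hM : 0 ≤ M) (h : Bd (fun a b => Y a b) (M ^ 2)) :
    ‖toEuclideanCLM (n := D) (𝕜 := ℂ) Y‖ ≤ M :=
  ContinuousLinearMap.opNorm_le_bound _ hM fun v => norm_mulVec_le hM h v

open scoped Matrix.Norms.L2Operator in
theorem sf_of_bd {D : Type} [Fintype D] [DecidableEq D] {Y : D → D → ℂ} {C : ℝ}
    (hC : 0 ≤ C) (h : Bd Y C) : SF Y C := by
  have h1 := norm_le_of_bd (Y := Matrix.of Y) (Real.sqrt_nonneg C)
    (by rw [Real.sq_sqrt hC]; exact h)
  refine sf_of_norm (T := Matrix.of Y) ?_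
  rw [← l2_opNorm_toEuclideanCLM, ← Real.sq_sqrt hC]
  exact pow_le_pow_left₀ (norm_nonneg _) h1 2

/-- the scalar estimate for finitely many tuples -/
theorem scalar_multi {r : ℕ} (hr : 1 ≤ r) {S : Type} [Fintype S] [DecidableEq S] {D : S → Type}
    [∀ s, Fintype (D s)] [∀ s, DecidableEq (D s)] {Y : ∀ s, Fin r → Matrix (D s) (D s) ℂ}
    (hYs : ∀ s i, star (Y s i) = Y s i) {M : ℝ} (hM : 0 < M)
    (hY : ∀ s i, Bd (fun a b => Y s i a b) (M ^ 2)) :
    ∃ (H : Type) (_ : Fintype H) (_ : DecidableEq H) (_ : Nonempty H) (τ : Fin r → H → H)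
      (f : H → H → ℂ), (∀ i, Function.Involutive (τ i)) ∧ SF f 1 ∧
      (Fintype.card H : ℝ) / 2 ≤ ∑ p, ∑ q, ‖f p q‖ ^ 2 ∧
      ∀ s, SF (fun (p q : H × D s) => ∑ i, f p.1 (τ i q.1) * Y s i p.2 q.2) (8 * r * M ^ 2) := by
  obtain ⟨H, i1, i2, i3, τ, f, h1, h2, h3, h4⟩ := scalar_main hr (D := Σ s, D s)
    (Y := fun i => blockDiagonal' fun s => Y s i) (fun i => by
      rw [star_eq_conjTranspose, blockDiagonal'_conjTranspose]
      simp only [← star_eq_conjTranspose, hYs]) hM (fun i z => by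
      have e1 : ∀ p : Σ s, D s, ∑ q, blockDiagonal' (fun s => Y s i) p q * z q =
          ∑ b, Y p.1 i p.2 b * z ⟨p.1, b⟩ := by
        rintro ⟨s, a⟩
        rw [Fintype.sum_sigma, Fintype.sum_eq_single s]
        · simp only [blockDiagonal'_apply_eq]
        · intro s' hs'
          simp only [blockDiagonal'_apply_ne _ _ _ hs'.symm, zero_mul, Finset.sum_const_zero]
      simp only [e1]
      simp only [col, Fintype.sum_sigma, Finset.smul_sum (s := (Finset.univ : Finset S))]
      exact Finset.sum_le_sum fun s _ => hY s i fun b => z ⟨s, b⟩)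
  refine ⟨H, i1, i2, i3, τ, f, h1, h2, h3, fun s => sf_of_bd (by positivity) ?_⟩
  have e1 : Function.Injective fun p : H × D s => ((p.1, ⟨s, p.2⟩) : H × Σ s, D s) := by
    rintro ⟨p, a⟩ ⟨q, b⟩ h
    simpa using h
  simpa only [blockDiagonal'_apply_eq] using h4.bd.sub e1 e1

section

variable {I : Type} [Fintype I] [DecidableEq I] {D : Type} [Fintype D] [DecidableEq D]

/-- the blocks of a matrix, as operators -/
noncomputable def blk (T : I × D → I × D → ℂ) (a b : D) :
    EuclideanSpace ℂ I →L[ℂ] EuclideanSpace ℂ I :=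
  toEuclideanCLM (n := I) (𝕜 := ℂ) (Matrix.of fun p q => T (p, a) (q, b))

theorem exists_blk {T : I × D → I × D → ℂ} {c : ℝ} (hc : 0 ≤ c) (h : SF T (c ^ 2)) :
    ∃ L : D → D → (EuclideanSpace ℂ I →L[ℂ] EuclideanSpace ℂ I), (∀ s b, ‖L s b‖ ≤ c) ∧
      ∀ b b', ∑ a, star (blk T a b) * blk T a b' + ∑ s, star (L s b) * L s b' =
        if b = b' then ((c ^ 2 : ℝ) : ℂ) • 1 else 0 := by
  obtain ⟨L, hL⟩ := h
  have h1 : ∀ b b', ∑ a, star (blk T a b) * blk T a b' + ∑ s, star (blk L s b) * blk L s b' =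
      if b = b' then ((c ^ 2 : ℝ) : ℂ) • 1 else 0 := by
    intro b b'
    have e1 : (if b = b' then ((c ^ 2 : ℝ) : ℂ) • 1 else 0) = toEuclideanCLM (n := I) (𝕜 := ℂ)
        (if b = b' then ((c ^ 2 : ℝ) : ℂ) • 1 else 0) := by
      split_ifs
      · rw [map_smul, map_one]
      · rw [map_zero]
    rw [e1]
    simp only [blk, ← map_star, ← map_mul, ← map_sum, ← map_add]
    congr 1
    ext q q'
    have e2 := hL (q, b) (q', b')
    simp only [Fintype.sum_prod_type_right, Prod.mk.injEq] at e2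
    simp only [Matrix.add_apply, Matrix.sum_apply, Matrix.mul_apply, Matrix.star_apply,
      Matrix.of_apply, e2]
    by_cases h1 : b = b' <;> by_cases h2 : q = q' <;> simp [h1, h2]
  refine ⟨blk L, fun s b => ?_, h1⟩
  have h2 := h1 b b
  rw [if_pos rfl] at h2
  have h3 : col (fun s => blk L s b) ≤ ((c ^ 2 : ℝ) : ℂ) • 1 := by
    rw [← h2]
    exact le_add_of_nonneg_left (col_nonneg fun a => blk T a b)
  have h4 := (norm_sq_le_col (fun s => blk L s b) s).trans (norm_mono (col_nonneg _) h3)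
  rw [norm_smul, Complex.norm_real, Real.norm_of_nonneg (by positivity)] at h4
  exact le_of_pow_le_pow_left₀ two_ne_zero hc
    (h4.trans (mul_le_of_le_one_right (by positivity) ContinuousLinearMap.norm_id_le))

end

section

variable {Λ : Type} {E : Λ → Type} [∀ l, NonUnitalCStarAlgebra (E l)]

/-- bounded families as elements of the product -/
def mkLp (x : ∀ l, E l) (c : ℝ) (h : ∀ l, ‖x l‖ ≤ c) : lp E ∞ :=
  ⟨x, memℓp_infty ⟨c, by rintro _ ⟨l, rfl⟩; exact h l⟩⟩

/-- the coordinates of the product -/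
def evLp (l : Λ) : lp E ∞ →⋆ₙₐ[ℂ] E l where
  toFun b := b l
  map_smul' _ _ := rfl
  map_zero' := rfl
  map_add' _ _ := rfl
  map_mul' _ _ := rfl
  map_star' _ := rfl

/-- the families which tend to zero -/
def nullLp (F : Filter Λ) : Submodule ℂ (lp E ∞) where
  carrier := {b | Tendsto (fun l => ‖evLp l b‖) F (𝓝 0)}
  zero_mem' := by simp only [Set.mem_ofPred_eq, map_zero, norm_zero]; exact tendsto_const_nhds
  add_mem' := by
    intro a b ha hb
    refine squeeze_zero (fun _ => norm_nonneg _) (fun l => ?_) (by simpa using ha.add hb)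
    rw [map_add]
    exact norm_add_le _ _
  smul_mem' := by
    intro c a ha
    simpa only [Set.mem_ofPred_eq, map_smul, norm_smul, mul_zero] using ha.const_mul ‖c‖

theorem isClosedIdeal_nullLp (F : Filter Λ) : IsClosedIdeal (nullLp (E := E) F) := by
  refine ⟨isClosed_of_closure_subset fun b hb => ?_, fun a x hx => ⟨?_, ?_⟩⟩
  · refine Metric.tendsto_nhds.2 fun ε hε => ?_
    obtain ⟨b', hb', hd⟩ := Metric.mem_closure_iff.1 hb (ε / 2) (half_pos hε)
    filter_upwards [Metric.tendsto_nhds.1 hb' (ε / 2) (half_pos hε)] with l hl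
    rw [dist_zero_right, norm_norm] at hl ⊢
    have h1 := NonUnitalStarAlgHom.norm_apply_le (evLp l) (b - b')
    rw [map_sub, ← dist_eq_norm b] at h1
    linarith [norm_sub_norm_le (evLp l b) (evLp l b')]
  · refine squeeze_zero (fun _ => norm_nonneg _) (fun l => ?_)
      (by simpa using Tendsto.const_mul ‖a‖ hx)
    rw [map_mul]
    exact (norm_mul_le _ _).trans
      (mul_le_mul_of_nonneg_right (NonUnitalStarAlgHom.norm_apply_le _ _) (norm_nonneg _))
  · refine squeeze_zero (fun _ => norm_nonneg _) (fun l => ?_)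
      (by simpa using Tendsto.mul_const ‖a‖ hx)
    rw [map_mul]
    exact (norm_mul_le _ _).trans
      (mul_le_mul_of_nonneg_left (NonUnitalStarAlgHom.norm_apply_le _ _) (norm_nonneg _))

theorem exists_prod (E : Λ → Type) [∀ l, NonUnitalCStarAlgebra (E l)] (F : Filter Λ) :
    ∃ (B C : Type) (_ : NonUnitalCStarAlgebra B) (_ : NonUnitalCStarAlgebra C)
      (q : B →⋆ₙₐ[ℂ] C) (ev : ∀ l, B →⋆ₙₐ[ℂ] E l), Function.Surjective q ∧
      (∀ b, q b = 0 ↔ Tendsto (fun l => ‖ev l b‖) F (𝓝 0)) ∧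
      ∀ (x : ∀ l, E l) (c : ℝ), 0 ≤ c → (∀ l, ‖x l‖ ≤ c) → ∃ b, ‖b‖ ≤ c ∧ ∀ l, ev l b = x l := by
  let _ : PartialOrder (lp E ∞) := CStarAlgebra.spectralOrder _
  have _ : StarOrderedRing (lp E ∞) := CStarAlgebra.spectralOrderedRing _
  obtain ⟨C, i1, -, -, q, hq, hk⟩ := (isClosedIdeal_nullLp (E := E) F).quot
  exact ⟨lp E ∞, C, inferInstance, i1, q, evLp, hq, hk, fun x c hc h =>
    ⟨mkLp x c h, lp.norm_le_of_forall_le hc h, fun _ => rfl⟩⟩

end

end Vale.Agent.P133Z
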